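import Claimed.Agent.R257.Br.Defs

/-!
# ROW 257 (S0497), THE BRIDGE, unit BR-F: PARSEVAL ON THE CAPS          (architect helper194)          CONTRACT
Paper: H `endpoint.tex` l.40-80 (`e:parseval`, `e:exact-packet`), dual form: `∫_{annulus} |Γ|² ≤ (L²/2π)^n ∑_{k,m} |a_{k,m}|²`.
Every `sorry` is a leaf `L-257-BR-*`.  Statements are frozen; prove IN PLACE, auxiliary lemmas directly above your theorem, prefix `br_`.
-/

set_option autoImplicit false

namespace Claimed.Agent.R257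

open MeasureTheory Metric Set
open scoped ENNReal ContDiff InnerProductSpace

variable {n : ℕ}

attribute [local instance] instMeasureSpaceUnitAddCircle

theorem br_integral_toLp {G : Type*} [NormedAddCommGroup G] [NormedSpace ℝ G] (g : E n → G) :
    ∫ x : Fin n → ℝ, g (WithLp.toLp 2 x) = ∫ ζ, g ζ :=
  (PiLp.volume_preserving_toLp (Fin n)).integral_comp (MeasurableEquiv.toLp 2 (Fin n → ℝ)).measurableEmbedding g

theorem br_mFourier_neg_coe (m : Fin n → ℤ) (x : Fin n → ℝ) :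
    UnitAddTorus.mFourier (-m) (fun i => (x i : UnitAddCircle))
      = Complex.exp (-(2 * Real.pi * Complex.I * ((⟪brVec m, (WithLp.toLp 2 x : E n)⟫_ℝ : ℝ) : ℂ))) := by
  have e : UnitAddTorus.mFourier (-m) (fun i => (x i : UnitAddCircle))
      = ∏ i, fourier ((-m) i) ((x i : UnitAddCircle)) := rfl
  rw [e]
  simp only [fourier_coe_apply]
  rw [← Complex.exp_sum]
  congr 1
  have h : ⟪brVec m, (WithLp.toLp 2 x : E n)⟫_ℝ = ∑ i, (m i : ℝ) * x i := by
    simp [brVec, PiLp.inner_apply, mul_comm]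
  rw [h]
  push_cast
  rw [Finset.mul_sum, ← Finset.sum_neg_distrib]
  refine Finset.sum_congr rfl fun i _ => ?_
  simp only [Pi.neg_apply, Int.cast_neg]
  ring

/-- **LEAF L-257-BR-PARS.**  PARSEVAL for a continuous function supported in the open ball of radius `1/2` (inside the unit cube); paper free.
PLAN.  `T = UnitAddTorus (Fin n)`, `π x = fun i => (x i : UnitAddCircle)`, `box = Set.pi univ fun _ => Ioc (-1/2) (1/2)`.  `π` is measure preserving from `volume.restrict box` on `Fin n → ℝ` to `volume` on `T`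
(`AddCircle.measurePreserving_mk`, `measurePreserving_pi`, `Measure.restrict_pi_pi`, `volume_pi`);  `E n ≃ Fin n → ℝ` preserves the volume (`PiLp.volume_preserving_ofLp / toLp`, `EuclideanSpace.volume_preserving_measurableEquiv`).
`F t = f (toLp 2 fun i => (AddCircle.equivIoc 1 (-1/2) (t i) : ℝ))` is bounded and measurable (`AddCircle.measurableEquivIoc`), `F ∘ π = f ∘ toLp` on `box`; `f = 0` off the box (`|ζ i| ≤ ‖ζ‖ < 1/2`).
`UnitAddTorus.hasSum_sq_mFourierCoeff` for `F` (as an element of `Lp ℂ 2`); `mFourierCoeff F m = ∫ mFourier (-m) • F = ∫_box e^{-2πi m·x} f`  (`integral_map`, `UnitAddTorus.mFourier_apply`?, `fourier_coe_apply`, `Complex.exp_sum`).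
Model for `n = 2` on main: `Claimed/Agent/R255/Pk/Fourier.lean`, `FourierSq.lean`.   Pass to `ℝ≥0∞` by `ENNReal.ofReal_tsum_of_nonneg`, `ofReal_integral_eq_lintegral_ofReal`. -/
theorem br_parseval (f : E n → ℂ) (hf : Continuous f) (hs : ∀ ζ, f ζ ≠ 0 → ‖ζ‖ < 1 / 2) :
    ∫⁻ ζ, ‖f ζ‖ₑ ^ 2 ≤ ∑' m : Fin n → ℤ, ‖∫ ζ, f ζ * Complex.exp (-(2 * Real.pi * Complex.I * ((⟪brVec m, ζ⟫_ℝ : ℝ) : ℂ)))‖ₑ ^ 2 := by
  set a : Fin n → ℝ := fun _ => -(1 / 2) with ha
  set C : Set (Fin n → ℝ) := {x | ∀ i, x i ∈ Ioc (a i) (a i + 1)} with hC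
  have hCm : MeasurableSet C := MeasurableSet.univ_pi' fun _ => measurableSet_Ioc
  set H : (Fin n → ℝ) → ℂ := fun x => f (WithLp.toLp 2 x) with hH
  have hoff : ∀ x, x ∉ C → H x = 0 := by
    intro x hx
    by_contra h
    have h1 := hs _ h
    apply hx
    intro i
    have h2 : ‖(WithLp.toLp 2 x : E n) i‖ ≤ ‖(WithLp.toLp 2 x : E n)‖ := PiLp.norm_apply_le _ i
    have h3 : |x i| < 1 / 2 := lt_of_le_of_lt h2 h1
    have h4 := abs_lt.1 h3
    simp only [ha]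
    constructor <;> linarith [h4.1, h4.2]
  have hcs : HasCompactSupport f :=
    HasCompactSupport.intro (isCompact_closedBall (0 : E n) (1 / 2)) (fun ζ hζ => by
      by_contra h
      exact hζ (by simpa using (hs ζ h).le))
  have hfL : MemLp f 2 volume := hf.memLp_of_hasCompactSupport hcs
  have hHL : MemLp H 2 volume := hfL.comp_measurePreserving (PiLp.volume_preserving_toLp (Fin n))
  have hHC : MemLp H 2 (volume.restrict C) := hHL.restrict C
  set T : UnitAddTorus (Fin n) → ℂ := fun t => H (UnitAddTorus.measurableEquivPiIoc a t).1 with hT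
  have hTc : ∀ x ∈ C, T (fun i => (x i : UnitAddCircle)) = H x := by
    intro x hx
    have e : (fun i => (x i : UnitAddCircle)) = (UnitAddTorus.measurableEquivPiIoc a).symm ⟨x, hx⟩ := rfl
    simp only [hT]
    rw [e, MeasurableEquiv.apply_symm_apply]
  have hTL : MemLp T 2 (volume : Measure (UnitAddTorus (Fin n))) := by
    have h := hHC
    rw [← map_comap_subtype_coe hCm volume, (MeasurableEmbedding.subtype_coe hCm).memLp_map_measure_iff] at h
    exact h.comp_measurePreserving (UnitAddTorus.measurePreserving_equivPiIoc a)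
  have key := UnitAddTorus.hasSum_sq_mFourierCoeff (hTL.toLp _)
  have aeT := hTL.coeFn_toLp
  have e_tot : ∫ t, ‖(hTL.toLp _) t‖ ^ 2 = ∫ ζ, ‖f ζ‖ ^ 2 := by
    have h1 : ∫ t, ‖(hTL.toLp _) t‖ ^ 2 = ∫ t, ‖T t‖ ^ 2 := by
      refine integral_congr_ae ?_
      filter_upwards [aeT] with t h1
      rw [h1]
    rw [h1, UnitAddTorus.integral_preimage (fun t => ‖T t‖ ^ 2) a, ← br_integral_toLp (fun ζ => ‖f ζ‖ ^ 2)]
    rw [setIntegral_congr_fun hCm (g := fun x => ‖H x‖ ^ 2) (fun x hx => by simp only [hTc x hx])]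
    refine setIntegral_eq_integral_of_forall_compl_eq_zero fun x hx => ?_
    rw [hoff x hx]
    simp
  have e_c : ∀ m, UnitAddTorus.mFourierCoeff (hTL.toLp _) m
      = ∫ ζ, f ζ * Complex.exp (-(2 * Real.pi * Complex.I * ((⟪brVec m, ζ⟫_ℝ : ℝ) : ℂ))) := by
    intro m
    unfold UnitAddTorus.mFourierCoeff
    have h1 : ∫ t, UnitAddTorus.mFourier (-m) t • (hTL.toLp _) t
        = ∫ t, UnitAddTorus.mFourier (-m) t * T t := by
      refine integral_congr_ae ?_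
      filter_upwards [aeT] with t h2
      rw [h2, smul_eq_mul]
    rw [h1, UnitAddTorus.integral_preimage (fun t => UnitAddTorus.mFourier (-m) t * T t) a,
      ← br_integral_toLp (fun ζ => f ζ * Complex.exp (-(2 * Real.pi * Complex.I * ((⟪brVec m, ζ⟫_ℝ : ℝ) : ℂ))))]
    rw [setIntegral_congr_fun hCm
      (g := fun x => H x * Complex.exp (-(2 * Real.pi * Complex.I * ((⟪brVec m, (WithLp.toLp 2 x : E n)⟫_ℝ : ℝ) : ℂ))))
      (fun x hx => by simp only [hTc x hx, br_mFourier_neg_coe, mul_comm])]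
    refine setIntegral_eq_integral_of_forall_compl_eq_zero fun x hx => ?_
    rw [hoff x hx, zero_mul]
  rw [e_tot] at key
  simp only [e_c] at key
  have hint : Integrable (fun ζ => ‖f ζ‖ ^ 2) volume := hfL.integrable_norm_pow (by norm_num)
  have e1 : ∫⁻ ζ, ‖f ζ‖ₑ ^ 2 = ENNReal.ofReal (∫ ζ, ‖f ζ‖ ^ 2) := by
    rw [ofReal_integral_eq_lintegral_ofReal hint (Filter.Eventually.of_forall fun ζ => by positivity)]
    refine lintegral_congr fun ζ => ?_
    rw [ENNReal.ofReal_pow (norm_nonneg _), ofReal_norm]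
  rw [e1, ← key.tsum_eq, ENNReal.ofReal_tsum_of_nonneg (fun m => by positivity) key.summable]
  refine le_of_eq (tsum_congr fun m => ?_)
  rw [ENNReal.ofReal_pow (norm_nonneg _), ofReal_norm]

/-- **LEAF L-257-BR-ECAR.**  Change of normalisation `ξ = 2π η / N`: unfold `egE`, `car`; `real_inner_smul_left/right`, `norm_smul`, `field_simp`. -/
theorem br_E_car (N t : ℝ) (x ξ : E n) : egE 0 t x ((N / (2 * Real.pi)) • ξ) = car ξ (N • x, N ^ 2 * t) := by
  unfold egE car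
  congr 1
  have hπ : (Real.pi : ℂ) ≠ 0 := by exact_mod_cast Real.pi_ne_zero
  simp only [inner_smul_right, inner_smul_left, norm_smul, mul_pow, Real.norm_eq_abs, sq_abs, RCLike.conj_to_real]
  push_cast
  field_simp
  ring

/-- **LEAF L-257-BR-PKID.**  `br_E_car` with `N = L²`, `ξ = ω_k + L⁻¹ ζ`; `inf_car_chart` with `y = 2π L m` (`⟪y, ζ⟫ / L = 2π ⟪m, ζ⟫`); `brH = ext ψ`; `integral_const_mul`; `L^{n/2} L^{-n/2} = 1` (`Real.rpow_add`). -/
theorem br_pk_id {L : ℝ} (hL : 0 < L) (α : BrI n) (t : ℝ) (x : E n) :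
    ∫ ζ, ((brPsi n ζ : ℂ) * egE 0 t x (brAff L α.1 ζ)) * Complex.exp (-(2 * Real.pi * Complex.I * ((⟪brVec α.2, ζ⟫_ℝ : ℝ) : ℂ)))
      = ((L ^ ((n : ℝ) / 2) : ℝ) : ℂ) * brPk L α (L ^ 2 • x, L ^ 4 * t) := by
  set z : ST n := (L ^ 2 • x, L ^ 4 * t) with hz
  set y : E n := (2 * Real.pi * L) • brVec α.2 with hy
  have e1 : ∀ ζ : E n, ((brPsi n ζ : ℂ) * egE 0 t x (brAff L α.1 ζ)) * Complex.exp (-(2 * Real.pi * Complex.I * ((⟪brVec α.2, ζ⟫_ℝ : ℝ) : ℂ)))
      = car (brOm L α.1) z * (car ζ (chart L (brOm L α.1) y 0 z) * (brPsi n ζ : ℂ)) := by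
    intro ζ
    have h1 : egE 0 t x (brAff L α.1 ζ) = car (brOm L α.1 + L⁻¹ • ζ) z := by
      unfold brAff
      rw [br_E_car, hz]
      congr 2
      ring
    have h2 := inf_car_chart (brOm L α.1) y ζ hL.ne' z
    have h3 : Complex.exp (-Complex.I * ((⟪y, ζ⟫_ℝ / L : ℝ) : ℂ))
        = Complex.exp (-(2 * Real.pi * Complex.I * ((⟪brVec α.2, ζ⟫_ℝ : ℝ) : ℂ))) := by
      congr 1
      rw [hy, inner_smul_left]
      simp only [RCLike.conj_to_real]
      have hL' : (L : ℂ) ≠ 0 := by exact_mod_cast hL.ne'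
      push_cast
      field_simp
    have h4 : car ζ (chart L (brOm L α.1) y 0 z)
        = Complex.exp (Complex.I * ((⟪(chart L (brOm L α.1) y 0 z).1, ζ⟫_ℝ - (chart L (brOm L α.1) y 0 z).2 * ‖ζ‖ ^ 2 : ℝ) : ℂ)) := rfl
    rw [h3, ← h4] at h2
    rw [h1, mul_assoc, ← h2]
    ring
  simp only [e1]
  rw [integral_const_mul]
  have e2 : brPk L α z = ((L ^ (-(n : ℝ) / 2) : ℝ) : ℂ) * car (brOm L α.1) z
      * ∫ ζ, car ζ (chart L (brOm L α.1) y 0 z) * (brPsi n ζ : ℂ) := rfl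
  have e3 : ((L ^ ((n : ℝ) / 2) : ℝ) : ℂ) * ((L ^ (-(n : ℝ) / 2) : ℝ) : ℂ) = 1 := by
    rw [← Complex.ofReal_mul, ← Real.rpow_add hL]
    have : (n : ℝ) / 2 + -(n : ℝ) / 2 = 0 := by ring
    rw [this, Real.rpow_zero, Complex.ofReal_one]
  rw [e2, ← mul_assoc, ← mul_assoc, e3, one_mul]

theorem br_aff_cont (L : ℝ) (k : Fin n → ℤ) : Continuous (brAff L k) := by
  unfold brAff
  fun_prop

theorem br_E_meas : Measurable fun q : ℝ × ℝ × EgV n × EgV n => egE q.1 q.2.1 q.2.2.1 q.2.2.2 :=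
  eg_E_cont.measurable

theorem br_coef_meas1 (b : E n → E n) (hb : Measurable b) {τ : E n → ℝ} (hτ : Measurable τ) :
    Measurable fun p : E n × E n => ((0 : ℝ), τ p.2, p.2, b p.1) := by
  fun_prop

theorem br_coef_meas0 (b : E n → E n) (hb : Measurable b) {τ : E n → ℝ} (hτ : Measurable τ) :
    Measurable fun p : E n × E n => egE 0 (τ p.2) p.2 (b p.1) := by
  have := br_E_meas.comp (br_coef_meas1 b hb hτ)
  exact this

/-- **LEAF L-257-BR-COEF.**  Fubini (`integral_integral_swap`) on `E n × A`: the integrand `ψ(ζ) egE 0 (τ x) x (brAff ζ) w(x) e^{…}` is measurable (`eg_E_cont`, `hd.mτ`, `hd.mw`) and bounded by `ψ(ζ)`, which is integrable, `A` has finite measure; then `br_pk_id`. -/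
theorem br_coef {L : ℝ} (hL : 0 < L) {x₀ : E n} {A : Set (E n)} {τ : E n → ℝ} {w : E n → ℂ} (hd : EgDat x₀ A τ w) (α : BrI n) :
    ∫ ζ, ((brPsi n ζ : ℂ) * egGam A τ w (brAff L α.1 ζ)) * Complex.exp (-(2 * Real.pi * Complex.I * ((⟪brVec α.2, ζ⟫_ℝ : ℝ) : ℂ)))
      = ((L ^ ((n : ℝ) / 2) : ℝ) : ℂ) * brCo L A τ w α := by
  have hAfin : IsFiniteMeasure (volume.restrict A) :=
    ⟨by rw [Measure.restrict_apply_univ]; exact eg_gam_vol hd⟩
  set F : E n → E n → ℂ := fun ζ x => w x * (((brPsi n ζ : ℂ) * egE 0 (τ x) x (brAff L α.1 ζ))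
    * Complex.exp (-(2 * Real.pi * Complex.I * ((⟪brVec α.2, ζ⟫_ℝ : ℝ) : ℂ)))) with hF
  have e1 : ∀ ζ, ((brPsi n ζ : ℂ) * egGam A τ w (brAff L α.1 ζ)) * Complex.exp (-(2 * Real.pi * Complex.I * ((⟪brVec α.2, ζ⟫_ℝ : ℝ) : ℂ)))
      = ∫ x in A, F ζ x := by
    intro ζ
    unfold egGam
    rw [← integral_const_mul, ← integral_mul_const]
    refine integral_congr_ae (Filter.Eventually.of_forall fun x => ?_)
    simp only [hF]
    ring
  simp only [e1]
  have hψi : Integrable (fun ζ : E n => (brPsi n ζ : ℝ)) volume := (brPsi n).integrable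
  have hmeas : Measurable (Function.uncurry F) := by
    have h1 : Measurable fun p : E n × E n => egE 0 (τ p.2) p.2 (brAff L α.1 p.1) :=
      br_coef_meas0 _ (br_aff_cont L α.1).measurable hd.mτ
    have h2 : Measurable fun p : E n × E n => ((brPsi n p.1 : ℝ) : ℂ) :=
      Complex.measurable_ofReal.comp ((brPsi n).continuous.measurable.comp measurable_fst)
    have h3 : Measurable fun p : E n × E n =>
        Complex.exp (-(2 * Real.pi * Complex.I * ((⟪brVec α.2, p.1⟫_ℝ : ℝ) : ℂ))) := by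
      have : Continuous fun p : E n × E n =>
        Complex.exp (-(2 * Real.pi * Complex.I * ((⟪brVec α.2, p.1⟫_ℝ : ℝ) : ℂ))) := by fun_prop
      exact this.measurable
    exact (hd.mw.comp measurable_snd).mul ((h2.mul h1).mul h3)
  have hint : Integrable (Function.uncurry F) (volume.prod (volume.restrict A)) := by
    refine (hψi.comp_fst (volume.restrict A)).mono' hmeas.aestronglyMeasurable
      (Filter.Eventually.of_forall fun p => ?_)
    simp only [Function.uncurry, hF, norm_mul, eg_E_norm_zero, mul_one, Complex.norm_real, Real.norm_eq_abs,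
      abs_of_nonneg (brPsi n).nonneg]
    have h1 : ‖Complex.exp (-(2 * Real.pi * Complex.I * ((⟪brVec α.2, p.1⟫_ℝ : ℝ) : ℂ)))‖ = 1 := by
      have : -(2 * Real.pi * Complex.I * ((⟪brVec α.2, p.1⟫_ℝ : ℝ) : ℂ))
          = ((-(2 * Real.pi * ⟪brVec α.2, p.1⟫_ℝ) : ℝ) : ℂ) * Complex.I := by
        push_cast
        ring
      rw [this, Complex.norm_exp_ofReal_mul_I]
    rw [h1, mul_one]
    calc ‖w p.2‖ * (brPsi n) p.1 ≤ 1 * (brPsi n) p.1 :=
          mul_le_mul_of_nonneg_right (hd.w1 _) (brPsi n).nonneg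
      _ = _ := one_mul _
  rw [integral_integral_swap hint]
  unfold brCo
  rw [← integral_const_mul]
  refine integral_congr_ae (Filter.Eventually.of_forall fun x => ?_)
  simp only [hF]
  rw [integral_const_mul, br_pk_id hL α (τ x) x]
  unfold brPhi
  ring

theorem br_norm_le_quarter (hn : 1 ≤ n) (ζ : E n) (h : ∀ i, |ζ i| ≤ 1 / (4 * (n : ℝ))) : ‖ζ‖ ≤ 1 / 4 := by
  have hn' : (1 : ℝ) ≤ n := by exact_mod_cast hn
  have h1 : ‖ζ‖ ^ 2 ≤ (1 / 4) ^ 2 := by
    rw [EuclideanSpace.norm_sq_eq]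
    calc ∑ i, ‖ζ i‖ ^ 2 ≤ ∑ _i : Fin n, (1 / (4 * (n : ℝ))) ^ 2 := by
          refine Finset.sum_le_sum fun i _ => ?_
          rw [Real.norm_eq_abs]
          exact pow_le_pow_left₀ (abs_nonneg _) (h i) 2
      _ = n * (1 / (4 * (n : ℝ))) ^ 2 := by simp
      _ ≤ (1 / 4) ^ 2 := by
          have : (n : ℝ) * (1 / (4 * (n : ℝ))) ^ 2 = 1 / (16 * n) := by
            field_simp
            ring
          rw [this, div_le_iff₀ (by positivity)]
          nlinarith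
  exact (pow_le_pow_iff_left₀ (norm_nonneg _) (by norm_num) two_ne_zero).1 h1

theorem br_inv_apply {L : ℝ} (hL : 0 < L) (hn : 1 ≤ n) (k : Fin n → ℤ) (η : E n) (i : Fin n) :
    brInv L k η i = 2 * Real.pi / L * η i - (k i : ℝ) / (2 * n) := by
  have hn' : (0 : ℝ) < n := by exact_mod_cast (by omega : 0 < n)
  simp only [brInv, brOm, brVec, PiLp.smul_apply, PiLp.sub_apply, smul_eq_mul]
  field_simp

/-- **LEAF L-257-BR-CV.** -/
theorem br_aff_inv {L : ℝ} (hL : 0 < L) (k : Fin n → ℤ) (η : E n) : brAff L k (brInv L k η) = η := by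
  unfold brAff brInv
  rw [smul_smul, inv_mul_cancel₀ hL.ne', one_smul, add_sub_cancel, smul_smul]
  have : L ^ 2 / (2 * Real.pi) * (2 * Real.pi / L ^ 2) = 1 := by
    have := Real.pi_pos
    field_simp
  rw [this, one_smul]

/-- **LEAF L-257-BR-CV.**  `brInv L k η = (2π/L) • η - L • ω_k`: `lintegral_sub_right_eq_self`, `Measure.map_addHaar_smul` / `MeasureTheory.Measure.lintegral_comp_smul`-type lemma (`(measurable_const_smul _).lintegral_map`…), `finrank_euclideanSpace_fin`. -/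
theorem br_cv {L : ℝ} (hL : 0 < L) (k : Fin n → ℤ) (F : E n → ℝ≥0∞) (hF : Measurable F) :
    ∫⁻ η, F (brInv L k η) = ENNReal.ofReal ((L / (2 * Real.pi)) ^ n) * ∫⁻ ζ, F ζ := by
  have hπ := Real.pi_pos
  set r : ℝ := 2 * Real.pi / L with hr
  have hr0 : 0 < r := by positivity
  have e1 : ∀ η, brInv L k η = r • η - L • brOm L k := by
    intro η
    unfold brInv
    rw [smul_sub, smul_smul]
    congr 2
    rw [hr]
    field_simp
  simp only [e1]
  have hF' : Measurable (fun ζ => F (ζ - L • brOm L k)) := hF.comp (measurable_id.sub_const _)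
  have e2 : ∫⁻ η, F (r • η - L • brOm L k)
      = ∫⁻ ζ, F (ζ - L • brOm L k) ∂(Measure.map (r • ·) (volume : Measure (E n))) :=
    (lintegral_map hF' (measurable_const_smul r)).symm
  rw [e2, Measure.map_addHaar_smul _ hr0.ne', lintegral_smul_measure, lintegral_sub_right_eq_self,
    finrank_euclideanSpace_fin, smul_eq_mul]
  congr 2
  rw [abs_of_pos (by positivity), hr, ← inv_pow, inv_div]

/-- **LEAF L-257-BR-CAP.**  One cap.
PLAN.  On `brQ L k`: `|ζ i| ≤ 1/(4n)`, so `‖ζ‖ ≤ 1/4` (`EuclideanSpace.norm_eq`, `‖ζ‖² = ∑ ζ_i² ≤ n/(16 n²) ≤ 1/16`) and `ψ(ζ) = 1` (`ContDiffBump.one_of_mem_closedBall`), `ζ = brInv L k η`, `η = brAff L k ζ` (`br_aff_inv`):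
`∫⁻_{Q_k} ‖Γ η‖² ≤ ∫⁻ G (brInv L k η) dη`, `G ζ = ‖ψ(ζ) Γ(brAff L k ζ)‖ₑ²`;  `br_cv`;  `br_parseval` for `f = ψ · Γ ∘ brAff` (continuous: `eg_Gam_cont`; support: `ContDiffBump.support_eq`);  `br_coef`;
`‖L^{n/2} a‖ₑ² = ofReal (L^n) ‖a‖ₑ²`, `ENNReal.tsum_mul_left`, `(L/2π)^n L^n = (L²/2π)^n`. -/
theorem br_cap (hn : 1 ≤ n) {L : ℝ} (hL : 0 < L) {x₀ : E n} {A : Set (E n)} {τ : E n → ℝ} {w : E n → ℂ} (hd : EgDat x₀ A τ w) (k : Fin n → ℤ) :
    ∫⁻ η in brQ L k, ‖egGam A τ w η‖ₑ ^ 2 ≤ ENNReal.ofReal ((L ^ 2 / (2 * Real.pi)) ^ n) * ∑' m : Fin n → ℤ, ‖brCo L A τ w (k, m)‖ₑ ^ 2 := by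
  have hπ := Real.pi_pos
  set f : E n → ℂ := fun ζ => (brPsi n ζ : ℂ) * egGam A τ w (brAff L k ζ) with hf
  have hfc : Continuous f :=
    (Complex.continuous_ofReal.comp (brPsi n).continuous).mul ((eg_Gam_cont hd).comp (br_aff_cont L k))
  have hfs : ∀ ζ, f ζ ≠ 0 → ‖ζ‖ < 1 / 2 := by
    intro ζ h
    have h1 : (brPsi n) ζ ≠ 0 := by
      intro h0
      apply h
      simp only [hf, h0, Complex.ofReal_zero, zero_mul]
    have h2 : ζ ∈ Function.support (brPsi n) := h1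
    rw [(brPsi n).support_eq, mem_ball_zero_iff] at h2
    exact h2
  set G : E n → ℝ≥0∞ := fun ζ => ‖f ζ‖ₑ ^ 2 with hG
  have hGm : Measurable G := hfc.measurable.enorm.pow_const 2
  have hinv : Measurable (brInv L k) := by
    have : Continuous (brInv L k) := by
      unfold brInv
      fun_prop
    exact this.measurable
  have s1 : ∫⁻ η in brQ L k, ‖egGam A τ w η‖ₑ ^ 2 ≤ ∫⁻ η, G (brInv L k η) := by
    refine le_trans (setLIntegral_mono (hGm.comp hinv) fun η hη => ?_) (setLIntegral_le_lintegral _ _)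
    have h1 : ‖brInv L k η‖ ≤ 1 / 4 :=
      br_norm_le_quarter hn _ fun i => abs_le.2 ⟨(hη i).1, (hη i).2.le⟩
    have h2 : (brPsi n) (brInv L k η) = 1 :=
      (brPsi n).one_of_mem_closedBall (by rw [mem_closedBall_zero_iff]; exact h1)
    simp only [hG, hf, Function.comp, h2, br_aff_inv hL, Complex.ofReal_one, one_mul]
    exact le_rfl
  refine s1.trans ?_
  rw [br_cv hL k G hGm]
  have s2 : ∫⁻ ζ, G ζ ≤ ENNReal.ofReal (L ^ n) * ∑' m : Fin n → ℤ, ‖brCo L A τ w (k, m)‖ₑ ^ 2 := by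
    refine (br_parseval f hfc hfs).trans (le_of_eq ?_)
    rw [← ENNReal.tsum_mul_left]
    refine tsum_congr fun m => ?_
    have := br_coef hL hd (k, m)
    simp only [hf]
    rw [this, enorm_mul, mul_pow]
    congr 1
    rw [← ofReal_norm, Complex.norm_real, Real.norm_eq_abs, abs_of_nonneg (by positivity),
      ← ENNReal.ofReal_pow (by positivity), ← Real.rpow_natCast, ← Real.rpow_mul hL.le]
    congr 1
    have : (n : ℝ) / 2 * ((2 : ℕ) : ℝ) = n := by push_cast; ring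
    rw [this, Real.rpow_natCast]
  calc _ ≤ ENNReal.ofReal ((L / (2 * Real.pi)) ^ n) * (ENNReal.ofReal (L ^ n) * ∑' m : Fin n → ℤ, ‖brCo L A τ w (k, m)‖ₑ ^ 2) := by
        gcongr
    _ = _ := by
        rw [← mul_assoc, ← ENNReal.ofReal_mul (by positivity), ← mul_pow]
        congr 3
        ring

/-- **LEAF L-257-BR-COVER.**  `ξ = (2π/L²) η`, `‖ξ‖ ≤ 4π`; `k i = ⌊2n (L ξ i + 1/(4n))⌋` (`Int.floor_le`, `Int.lt_floor_add_one`): `L(ξ - ω_k) i ∈ [-1/(4n), 1/(4n))`; then `‖ξ - ω_k‖ ≤ 1/(4L) ≤ 1/4` (as in `br_cap`) and `‖ω_k‖ ≤ 4π + 1/4 ≤ 14` (`Real.pi_lt_d2`). -/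
theorem br_cover (hn : 1 ≤ n) {L : ℝ} (hL : 1 ≤ L) (η : E n) (hη : ‖η‖ ≤ 2 * L ^ 2) : ∃ k : Fin n → ℤ, η ∈ brQ L k ∧ ‖brOm L k‖ ≤ 14 := by
  have hL0 : 0 < L := lt_of_lt_of_le one_pos hL
  have hn' : (0 : ℝ) < n := by exact_mod_cast (by omega : 0 < n)
  have hπ := Real.pi_pos
  set k : Fin n → ℤ := fun i => ⌊2 * (n : ℝ) * (2 * Real.pi / L * η i) + 1 / 2⌋ with hk
  have hQ : ∀ i, -(1 / (4 * (n : ℝ))) ≤ brInv L k η i ∧ brInv L k η i < 1 / (4 * (n : ℝ)) := by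
    intro i
    rw [br_inv_apply hL0 hn]
    have h1 : ((k i : ℤ) : ℝ) ≤ 2 * (n : ℝ) * (2 * Real.pi / L * η i) + 1 / 2 := Int.floor_le _
    have h2 : 2 * (n : ℝ) * (2 * Real.pi / L * η i) + 1 / 2 < (k i : ℝ) + 1 := Int.lt_floor_add_one _
    have e1 : (k i : ℝ) / (2 * n) * (2 * n) = k i := by field_simp
    have e2 : 1 / (4 * (n : ℝ)) * (2 * n) = 1 / 2 := by field_simp; norm_num
    constructor
    · by_contra hc
      push Not at hc
      have := mul_lt_mul_of_pos_right hc (by positivity : (0 : ℝ) < 2 * n)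
      nlinarith
    · by_contra hc
      push Not at hc
      have := mul_le_mul_of_nonneg_right hc (by positivity : (0 : ℝ) ≤ 2 * n)
      nlinarith
  refine ⟨k, hQ, ?_⟩
  have hζ : ‖brInv L k η‖ ≤ 1 / 4 := br_norm_le_quarter hn _ fun i => abs_le.2 ⟨(hQ i).1, (hQ i).2.le⟩
  have e : brOm L k = (2 * Real.pi / L ^ 2) • η - L⁻¹ • brInv L k η := by
    unfold brInv
    rw [smul_smul, inv_mul_cancel₀ hL0.ne', one_smul]
    abel
  rw [e]
  have h1 : ‖(2 * Real.pi / L ^ 2) • η‖ ≤ 4 * Real.pi := by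
    rw [norm_smul, Real.norm_eq_abs, abs_of_pos (by positivity)]
    calc 2 * Real.pi / L ^ 2 * ‖η‖ ≤ 2 * Real.pi / L ^ 2 * (2 * L ^ 2) := by gcongr
      _ = 4 * Real.pi := by field_simp; ring
  have h2 : ‖L⁻¹ • brInv L k η‖ ≤ 1 / 4 := by
    rw [norm_smul, Real.norm_eq_abs, abs_of_pos (by positivity)]
    calc L⁻¹ * ‖brInv L k η‖ ≤ 1 * (1 / 4) := by
          gcongr
          exact inv_le_one_of_one_le₀ hL
      _ = 1 / 4 := one_mul _
  have h3 := Real.pi_lt_d2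
  calc _ ≤ ‖(2 * Real.pi / L ^ 2) • η‖ + ‖L⁻¹ • brInv L k η‖ := norm_sub_le _ _
    _ ≤ 14 := by linarith

/-- **LEAF L-257-BR-ANN.**  All caps.
PLAN.  In `ℝ≥0∞`: annulus `⊆ ⋃_{k ∈ 𝒦} Q_k`, `𝒦 = {k | ‖ω_k‖ ≤ 14}` (`br_cover`); `lintegral_iUnion_le` over the countable type `↥𝒦` (or over all `k` with the sets `Q_k ∩ annulus`, empty for `k ∉ 𝒦`… choose);  `br_cap`;
`∑'_{k ∈ 𝒦} ∑'_m ‖a_{k,m}‖ₑ² = ∑'` over a subtype of `BrI n` (`ENNReal.tsum_prod`, `tsum_subtype`/indicators) `= ⨆` over finite sets (`ENNReal.tsum_eq_iSup_sum`) `≤ ofReal M` by `h`.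
Back to `ℝ`: `ofReal_integral_eq_lintegral_ofReal` (`‖Γ‖²` is continuous and bounded, the annulus is bounded and measurable: `eg_Gam_cont`, `eg_Gam_norm_le`), `ENNReal.ofReal_le_ofReal_iff`. -/
theorem br_ann_le (hn : 1 ≤ n) {L : ℝ} (hL : 1 ≤ L) {x₀ : E n} {A : Set (E n)} {τ : E n → ℝ} {w : E n → ℂ} (hd : EgDat x₀ A τ w) {M : ℝ} (hM : 0 ≤ M)
    (h : ∀ S : Finset (BrI n), (∀ α ∈ S, ‖brOm L α.1‖ ≤ 14) → ∑ α ∈ S, ‖brCo L A τ w α‖ ^ 2 ≤ M) :
    ∫ η in {η : E n | L ^ 2 / 2 ≤ ‖η‖ ∧ ‖η‖ ≤ 2 * L ^ 2}, ‖egGam A τ w η‖ ^ 2 ≤ (L ^ 2 / (2 * Real.pi)) ^ n * M := by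
  classical
  have hπ := Real.pi_pos
  have hL0 : 0 < L := lt_of_lt_of_le one_pos hL
  set c : ℝ := (L ^ 2 / (2 * Real.pi)) ^ n with hc
  have hc0 : 0 ≤ c := by positivity
  set Ann : Set (E n) := {η : E n | L ^ 2 / 2 ≤ ‖η‖ ∧ ‖η‖ ≤ 2 * L ^ 2} with hAnn
  set S : (Fin n → ℤ) → Set (E n) := fun k => if ‖brOm L k‖ ≤ 14 then brQ L k else ∅ with hS
  set g : (Fin n → ℤ) → (Fin n → ℤ) → ℝ≥0∞ := fun k m => if ‖brOm L k‖ ≤ 14 then ‖brCo L A τ w (k, m)‖ₑ ^ 2 else 0 with hg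
  have hsub : Ann ⊆ ⋃ k, S k := by
    intro η hη
    obtain ⟨k, hk, hk14⟩ := br_cover hn hL η hη.2
    refine mem_iUnion.2 ⟨k, ?_⟩
    simp only [hS, if_pos hk14]
    exact hk
  have hone : ∀ k, ∫⁻ η in S k, ‖egGam A τ w η‖ₑ ^ 2 ≤ ENNReal.ofReal c * ∑' m, g k m := by
    intro k
    by_cases hk : ‖brOm L k‖ ≤ 14
    · simp only [hS, hg, if_pos hk]
      exact br_cap hn hL0 hd k
    · simp only [hS, if_neg hk, Measure.restrict_empty, lintegral_zero_measure]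
      exact zero_le
  have hsum : ∑' k, ∑' m, g k m ≤ ENNReal.ofReal M := by
    rw [← ENNReal.tsum_prod (f := g), ENNReal.tsum_eq_iSup_sum]
    refine iSup_le fun s => ?_
    have e1 : ∑ α ∈ s, g α.1 α.2 = ∑ α ∈ s.filter (fun α => ‖brOm L α.1‖ ≤ 14), ‖brCo L A τ w α‖ₑ ^ 2 := by
      rw [Finset.sum_filter]
    rw [e1]
    have e2 : ∑ α ∈ s.filter (fun α => ‖brOm L α.1‖ ≤ 14), ‖brCo L A τ w α‖ₑ ^ 2
        = ENNReal.ofReal (∑ α ∈ s.filter (fun α => ‖brOm L α.1‖ ≤ 14), ‖brCo L A τ w α‖ ^ 2) := by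
      rw [ENNReal.ofReal_sum_of_nonneg (fun α _ => by positivity)]
      refine Finset.sum_congr rfl fun α _ => ?_
      rw [ENNReal.ofReal_pow (norm_nonneg _), ofReal_norm]
    rw [e2]
    exact ENNReal.ofReal_le_ofReal (h _ fun α hα => (Finset.mem_filter.1 hα).2)
  have hmain : ∫⁻ η in Ann, ‖egGam A τ w η‖ₑ ^ 2 ≤ ENNReal.ofReal (c * M) := by
    calc ∫⁻ η in Ann, ‖egGam A τ w η‖ₑ ^ 2 ≤ ∫⁻ η in ⋃ k, S k, ‖egGam A τ w η‖ₑ ^ 2 := lintegral_mono_set hsub
      _ ≤ ∑' k, ∫⁻ η in S k, ‖egGam A τ w η‖ₑ ^ 2 := lintegral_iUnion_le _ _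
      _ ≤ ∑' k, ENNReal.ofReal c * ∑' m, g k m := ENNReal.tsum_le_tsum hone
      _ = ENNReal.ofReal c * ∑' k, ∑' m, g k m := ENNReal.tsum_mul_left
      _ ≤ ENNReal.ofReal c * ENNReal.ofReal M := by gcongr
      _ = ENNReal.ofReal (c * M) := (ENNReal.ofReal_mul hc0).symm
  have hcm : Continuous fun η => ‖egGam A τ w η‖ ^ 2 := (eg_Gam_cont hd).norm.pow 2
  rw [integral_eq_lintegral_of_nonneg_ae (Filter.Eventually.of_forall fun η => by positivity)
    hcm.aestronglyMeasurable]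
  refine ENNReal.toReal_le_of_le_ofReal (by positivity) ?_
  refine le_trans (le_of_eq ?_) hmain
  refine lintegral_congr fun η => ?_
  rw [ENNReal.ofReal_pow (norm_nonneg _), ofReal_norm]

end Claimed.Agent.R257
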