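import Claimed.Agent.R257.Br.Prof

/-!
# ROW 257 (S0497), THE BRIDGE, unit BR-S: EXACT PACKETS ARE CONTINUOUS SUPERPOSITIONS OF COMPACT ATOMS          (architect helper194)          CONTRACT
Paper: H `endpoint.tex` l.82-100, with the CONTINUOUS partition `1 = ∫ b(u - v) dv` instead of `∑_q ρ(u - q)` and the factor `κ̌(σ)` (of modulus `≥ 1/2` on the slab) instead of an exact time cut-off.
Every `sorry` is a leaf `L-257-BR-*`.  Statements are frozen; prove IN PLACE, auxiliary lemmas directly above your theorem, prefix `br_`.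
-/

set_option autoImplicit false

namespace Claimed.Agent.R257

open MeasureTheory Metric Set
open scoped ENNReal ContDiff InnerProductSpace

variable {n : ℕ}

theorem br_wt_pos (v : E n) : 0 < brWt v := by
  unfold brWt
  positivity

/-- **LEAF L-257-BR-WT.**  `integrable_one_add_norm` with `r = n + 1 > finrank = n` (`finrank_euclideanSpace_fin`); `Real.rpow_neg`, `Real.rpow_natCast`. -/
theorem br_wt_integrable : Integrable (brWt : E n → ℝ) := by
  have h := integrable_one_add_norm (E := E n) (μ := volume) (r := ((n + 1 : ℕ) : ℝ))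
    (by rw [finrank_euclideanSpace_fin]; push_cast; linarith)
  refine h.congr (Filter.Eventually.of_forall fun v => ?_)
  simp only [brWt]
  rw [Real.rpow_neg (by positivity), Real.rpow_natCast]

/-- **LEAF L-257-BR-ATOM.**  Pure algebra: unfold `Arr.atom, brArr, brPf, brCut, brHH, brPk, chart, brWt`;  `L⁻¹ • (x - (y + L • v) - w) = L⁻¹ • (x - y - w) - v`;  `(Y - v) + v = Y`;  `brWt v * (1+‖v‖)^{n+1} = 1`. -/
theorem br_atom_eq {L : ℝ} (hL : 0 < L) (v : E n) (α : BrI n) (z : ST n) :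
    (brWt v : ℂ) * (brArr L v).atom α z
      = (((brB n).normed volume ((chart L (brOm L α.1) ((2 * Real.pi * L) • brVec α.2) 0 z).1 - v) : ℝ) : ℂ)
          * ((brTh (z.2 / L ^ 2) : ℂ) * (brKh (z.2 / L ^ 2) * brPk L α z)) := by
  have hX : chart L (brOm L α.1) ((2 * Real.pi * L) • brVec α.2 + L • v) 0 z
      = ((chart L (brOm L α.1) ((2 * Real.pi * L) • brVec α.2) 0 z).1 - v, z.2 / L ^ 2) := by
    unfold chart
    refine Prod.ext ?_ (by simp)
    simp only
    have e : z.1 - ((2 * Real.pi * L) • brVec α.2 + L • v) - (2 * z.2) • brOm L α.1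
        = (z.1 - (2 * Real.pi * L) • brVec α.2 - (2 * z.2) • brOm L α.1) - L • v := by abel
    rw [e, smul_sub, inv_smul_smul₀ hL.ne']
  have hY : chart L (brOm L α.1) ((2 * Real.pi * L) • brVec α.2) 0 z
      = ((chart L (brOm L α.1) ((2 * Real.pi * L) • brVec α.2) 0 z).1, z.2 / L ^ 2) := by
    unfold chart
    simp
  have hw : (brWt v : ℂ) * (((1 + ‖v‖) ^ (n + 1) : ℝ) : ℂ) = 1 := by
    rw [← Complex.ofReal_mul]
    unfold brWt
    rw [inv_mul_cancel₀ (by positivity)]
    simp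
  show (brWt v : ℂ) * (((L ^ (-(n : ℝ) / 2) : ℝ) : ℂ) * car (brOm L α.1) z
      * brPf v (chart L (brOm L α.1) ((2 * Real.pi * L) • brVec α.2 + L • v) 0 z)) = _
  rw [hX]
  unfold brPf brCut brHH brPk
  simp only [sub_add_cancel]
  rw [← hY]
  push_cast
  push_cast at hw
  linear_combination (((brB n).normed volume ((chart L (brOm L α.1) ((2 * Real.pi * L) • brVec α.2) 0 z).1 - v) : ℝ) : ℂ)
          * ((brTh (z.2 / L ^ 2) : ℂ) * (brKh (z.2 / L ^ 2) * (((L ^ (-(n : ℝ) / 2) : ℝ) : ℂ) * car (brOm L α.1) z * brH (chart L (brOm L α.1) ((2 * Real.pi * L) • brVec α.2) 0 z)))) * hw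

/-- **LEAF L-257-BR-SUP.**  `br_atom_eq`; `ContDiffBump.integrable_normed`, `Integrable.comp_sub_left`, `Integrable.ofReal`, `.mul_const`. -/
theorem br_sup_integrable {L : ℝ} (hL : 0 < L) (α : BrI n) (z : ST n) : Integrable fun v : E n => (brWt v : ℂ) * (brArr L v).atom α z := by
  simp_rw [br_atom_eq hL]
  exact (((brB n).integrable_normed (μ := volume)).comp_sub_left _).ofReal.mul_const _

/-- **LEAF L-257-BR-SUP.**  `br_atom_eq`; `∫ b(Y - v) dv = 1` (`integral_sub_left_eq_self`, `ContDiffBump.integral_normed`, `integral_ofReal`); `θ(σ) = 1` for `σ ∈ [0,1]` (`ContDiffBump.one_of_mem_closedBall`, `|σ - 1/2| ≤ 1`). -/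
theorem br_sup {L : ℝ} (hL : 0 < L) (α : BrI n) (z : ST n) (h0 : 0 ≤ z.2) (h1 : z.2 ≤ L ^ 2) :
    ∫ v : E n, (brWt v : ℂ) * (brArr L v).atom α z = brKh (z.2 / L ^ 2) * brPk L α z := by
  simp_rw [br_atom_eq hL]
  rw [integral_mul_const, integral_complex_ofReal, integral_sub_left_eq_self (fun u => (brB n).normed volume u) volume, (brB n).integral_normed]
  have hθ : brTh (z.2 / L ^ 2) = 1 := by
    apply brTh.one_of_mem_closedBall
    rw [mem_closedBall, Real.dist_eq, abs_le]
    have hL2 : 0 < L ^ 2 := by positivity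
    have a1 : 0 ≤ z.2 / L ^ 2 := div_nonneg h0 hL2.le
    have a2 : z.2 / L ^ 2 ≤ 1 := (div_le_one hL2).2 h1
    have : brTh.rIn = 1 := rfl
    rw [this]
    constructor <;> linarith
  rw [hθ]
  simp

theorem br_cut_continuous : Continuous (brCut : ST n → ℝ) := by
  unfold brCut
  exact (((brB n).contDiff_normed (n := 0)).continuous.comp continuous_fst).mul (brTh.continuous.comp continuous_snd)

theorem br_HH_continuous : Continuous (brHH : ST n → ℂ) := by
  obtain ⟨f, hf⟩ := br_HH_schwartz n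
  have : (brHH : ST n → ℂ) = f := by
    funext X
    exact (hf X).symm
  rw [this]
  exact f.continuous

theorem br_chart_continuous (L : ℝ) (w y : E n) : Continuous fun p : E n × ST n => chart L w (y + L • p.1) 0 p.2 := by
  unfold chart
  fun_prop

theorem br_pf_continuous : Continuous fun p : E n × ST n => brPf p.1 p.2 := by
  unfold brPf
  refine Continuous.mul ?_ ?_
  · refine Complex.continuous_ofReal.comp ?_
    refine Continuous.mul (by fun_prop) (br_cut_continuous.comp continuous_snd)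
  · refine br_HH_continuous.comp ?_
    fun_prop


theorem br_atom_def (L : ℝ) (v : E n) (α : BrI n) (z : ST n) : (brArr L v).atom α z = ((L ^ (-(n : ℝ) / 2) : ℝ) : ℂ) * car (brOm L α.1) z
      * brPf v (chart L (brOm L α.1) ((2 * Real.pi * L) • brVec α.2 + L • v) 0 z) := rfl

theorem br_atom_continuous (L : ℝ) (α : BrI n) : Continuous fun p : E n × ST n => (brArr L p.1).atom α p.2 := by
  simp_rw [br_atom_def]
  have hcar : Continuous fun p : E n × ST n => car (brOm L α.1) p.2 := by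
    unfold car
    fun_prop
  have hpf : Continuous fun p : E n × ST n => brPf p.1 (chart L (brOm L α.1) ((2 * Real.pi * L) • brVec α.2 + L • p.1) 0 p.2) :=
    br_pf_continuous.comp (continuous_fst.prodMk (br_chart_continuous L _ _))
  exact (continuous_const.mul hcar).mul hpf

/-- **LEAF L-257-BR-JM.**  Joint measurability.  `(v, z) ↦ (brArr L v).atom α z` is continuous: `inf_car_continuous`; `chart` is continuous in `(v, z)`; `brPf` is continuous in `(v, X)` (`br_cut_smooth.continuous`, `brHH` = a Schwartz map by `br_HH_schwartz`);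
compose with the measurable `(x, v) ↦ (v, Φ x)`. -/
theorem br_fld_meas (L : ℝ) {τ : E n → ℝ} (hτ : Measurable τ) (S : Finset (BrI n)) (c : BrI n → ℂ) :
    Measurable fun q : E n × E n => (brArr L q.2).fld S c (brPhi L τ q.1) := by
  unfold Arr.fld
  refine Finset.measurable_sum _ fun α _ => ?_
  refine measurable_const.mul ?_
  have hΦ : Measurable (brPhi L τ) := by
    unfold brPhi
    exact (measurable_id.const_smul (L ^ 2)).prodMk (hτ.const_mul _)
  have h1 : Measurable fun p : E n × ST n => (brArr L p.1).atom α p.2 := (br_atom_continuous L α).measurable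
  have h2 : Measurable fun q : E n × E n => ((q.2, brPhi L τ q.1) : E n × ST n) := measurable_snd.prodMk (hΦ.comp measurable_fst)
  exact Measurable.comp (g := fun p : E n × ST n => (brArr L p.1).atom α p.2) (f := fun q : E n × E n => ((q.2, brPhi L τ q.1) : E n × ST n)) h1 h2

/-- **LEAF L-257-BR-SUM.**  Sum of the layers.
PLAN.  For `x ∈ A`, `z = Φ x`: `0 ≤ z.2 = L⁴ τ x ≤ L²`, `σ = z.2/L² ∈ [0,1]`, `‖κ̌(σ)‖ ≥ 1/2` (`br_Kh_ge`), so `‖∑ c_α P_α(z)‖ ≤ 2 ‖∑ c_α κ̌(σ) P_α(z)‖ = 2 ‖∫ brWt v • fld_v z dv‖` (`br_sup`, `integral_finset_sum` with `br_sup_integrable`, `Finset.mul_sum`)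
`≤ 2 ∫⁻ ofReal (brWt v) ‖fld_v z‖ₑ dv` (`enorm_integral_le_lintegral_enorm`).   Tonelli (`lintegral_lintegral_swap`, `br_fld_meas`), `lintegral_const_mul`, `hK`, `lintegral_mul_const`, `ofReal_integral_eq_lintegral_ofReal br_wt_integrable`. -/
theorem br_sum_le {L : ℝ} (hL : 0 < L) {A : Set (E n)} (hA : MeasurableSet A) {τ : E n → ℝ} (hτ : Measurable τ)
    (h : ∀ x ∈ A, τ x ∈ Set.Icc (0 : ℝ) (1 / L ^ 2)) (S : Finset (BrI n)) (c : BrI n → ℂ) (K : ℝ≥0∞)
    (hK : ∀ v : E n, ∫⁻ x in A, ‖(brArr L v).fld S c (brPhi L τ x)‖ₑ ≤ K) :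
    ∫⁻ x in A, ‖∑ α ∈ S, c α * brPk L α (brPhi L τ x)‖ₑ ≤ 2 * ENNReal.ofReal (∫ v : E n, brWt v) * K := by
  have hpt : ∀ x ∈ A, ‖∑ α ∈ S, c α * brPk L α (brPhi L τ x)‖ₑ
      ≤ 2 * ∫⁻ v : E n, ENNReal.ofReal (brWt v) * ‖(brArr L v).fld S c (brPhi L τ x)‖ₑ := by
    intro x hx
    obtain ⟨t0, t1⟩ := h x hx
    set z := brPhi L τ x with hz
    have hL2 : 0 < L ^ 2 := by positivity
    have z0 : 0 ≤ z.2 := by
      show 0 ≤ L ^ 4 * τ x
      positivity
    have z1 : z.2 ≤ L ^ 2 := by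
      show L ^ 4 * τ x ≤ L ^ 2
      calc L ^ 4 * τ x ≤ L ^ 4 * (1 / L ^ 2) := mul_le_mul_of_nonneg_left t1 (by positivity)
        _ = L ^ 2 := by field_simp
    have hk : 1 / 2 ≤ ‖brKh (z.2 / L ^ 2)‖ := br_Kh_ge (div_nonneg z0 hL2.le) ((div_le_one hL2).2 z1)
    have e1 : ∫ v : E n, (brWt v : ℂ) * (brArr L v).fld S c z = brKh (z.2 / L ^ 2) * ∑ α ∈ S, c α * brPk L α z := by
      unfold Arr.fld
      simp_rw [Finset.mul_sum]
      rw [integral_finsetSum]
      · refine Finset.sum_congr rfl fun α _ => ?_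
        have : ∀ v : E n, (brWt v : ℂ) * (c α * (brArr L v).atom α z) = c α * ((brWt v : ℂ) * (brArr L v).atom α z) := fun v => by ring
        simp_rw [this]
        rw [integral_const_mul, br_sup hL α z z0 z1]
        ring
      · intro α _
        have : ∀ v : E n, (brWt v : ℂ) * (c α * (brArr L v).atom α z) = c α * ((brWt v : ℂ) * (brArr L v).atom α z) := fun v => by ring
        simp_rw [this]
        exact (br_sup_integrable hL α z).const_mul _
    have e2 : ‖∑ α ∈ S, c α * brPk L α z‖ₑ ≤ 2 * ‖brKh (z.2 / L ^ 2) * ∑ α ∈ S, c α * brPk L α z‖ₑ := by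
      rw [enorm_mul, ← mul_assoc]
      have : (1 : ℝ≥0∞) ≤ 2 * ‖brKh (z.2 / L ^ 2)‖ₑ := by
        rw [← ofReal_norm, show (2 : ℝ≥0∞) = ENNReal.ofReal 2 by simp, ← ENNReal.ofReal_mul (by norm_num),
          ← ENNReal.ofReal_one]
        exact ENNReal.ofReal_le_ofReal (by linarith)
      calc _ = 1 * ‖∑ α ∈ S, c α * brPk L α z‖ₑ := (one_mul _).symm
        _ ≤ _ := mul_le_mul' this le_rfl
    refine e2.trans (mul_le_mul' le_rfl ?_)
    rw [← e1]
    refine (enorm_integral_le_lintegral_enorm _).trans (le_of_eq ?_)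
    refine lintegral_congr fun v => ?_
    rw [enorm_mul]
    congr 1
    rw [← ofReal_norm, Complex.norm_real, Real.norm_eq_abs, abs_of_pos (br_wt_pos v)]
  have hwm : Measurable (brWt : E n → ℝ) := by
    unfold brWt
    fun_prop
  calc ∫⁻ x in A, ‖∑ α ∈ S, c α * brPk L α (brPhi L τ x)‖ₑ
      ≤ ∫⁻ x in A, 2 * ∫⁻ v : E n, ENNReal.ofReal (brWt v) * ‖(brArr L v).fld S c (brPhi L τ x)‖ₑ :=
        setLIntegral_mono' hA hpt
    _ = 2 * ∫⁻ x in A, ∫⁻ v : E n, ENNReal.ofReal (brWt v) * ‖(brArr L v).fld S c (brPhi L τ x)‖ₑ :=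
        lintegral_const_mul' _ _ (by simp)
    _ = 2 * ∫⁻ v : E n, ∫⁻ x in A, ENNReal.ofReal (brWt v) * ‖(brArr L v).fld S c (brPhi L τ x)‖ₑ := by
        rw [lintegral_lintegral_swap]
        refine Measurable.aemeasurable ?_
        exact ((hwm.comp measurable_snd).ennreal_ofReal).mul (br_fld_meas L hτ S c).enorm
    _ ≤ 2 * ∫⁻ v : E n, ENNReal.ofReal (brWt v) * K := by
        refine mul_le_mul' le_rfl (lintegral_mono fun v => ?_)
        rw [lintegral_const_mul' _ _ ENNReal.ofReal_ne_top]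
        exact mul_le_mul' le_rfl (hK v)
    _ = 2 * ENNReal.ofReal (∫ v : E n, brWt v) * K := by
        rw [lintegral_mul_const _ hwm.ennreal_ofReal,
          ofReal_integral_eq_lintegral_ofReal br_wt_integrable (Filter.Eventually.of_forall fun v => (br_wt_pos v).le), mul_assoc]

end Claimed.Agent.R257
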