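import Claimed.Agent.R257.Br.Meas
import Claimed.Agent.R257.Br.Sup
import Claimed.Agent.R257.Br.Pars

/-!
# ROW 257 (S0497), THE BRIDGE, TOP: `WeakStmt n W ⟹ ∃ p > 2, C, EgShort n p C`          (architect helper194)
`br_main` is the exit.  Every `sorry` is a leaf `L-257-BR-*`.
-/

set_option autoImplicit false

namespace Claimed.Agent.R257

open MeasureTheory Metric Set
open scoped ENNReal ContDiff InnerProductSpace ComplexConjugate

variable {n : ℕ}

/-- **LEAF L-257-BR-SHIFT.**  `egGam A τ w η = egE 0 t₀ 0 η * egGam A (fun x => τ x - t₀) w η` (pointwise `egE 0 t x η = egE 0 t₀ 0 η * egE 0 (t - t₀) x η`: `Complex.exp_add`; or `eg_E_rescale` with `r = 1`, `x₁ = 0`), `eg_E_norm_zero`;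
`EgDat` passes to `τ - t₀` (`Measurable.sub_const`, the range is the image of a finite set). -/
theorem br_shift {p C : ℝ} (h : EgShort0 n p C) : EgShort n p C := by
  intro j x₀ A τ w t₀ hd hτ
  have hd' : EgDat x₀ A (fun x => τ x - t₀) w :=
    ⟨hd.mA, hd.sub, hd.mτ.sub_const t₀, by
      have : Set.range (fun x => τ x - t₀) = (fun t => t - t₀) '' Set.range τ := by
        rw [← Set.range_comp]
        rfl
      rw [this]
      exact hd.fin.image _, hd.mw, hd.w1⟩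
  have hτ' : ∀ x ∈ A, τ x - t₀ ∈ Set.Icc (0 : ℝ) (1 / 2 ^ j) := fun x hx => by
    have := hτ x hx
    exact ⟨by linarith [this.1], by linarith [this.2]⟩
  have h1 := h j x₀ A (fun x => τ x - t₀) w hd' hτ'
  have h2 : ∀ η : EgV n, ‖egGam A τ w η‖ = ‖egGam A (fun x => τ x - t₀) w η‖ := by
    intro η
    have e : ∀ x : EgV n, egE 0 (τ x) x η * w x = egE 0 t₀ 0 η * (egE 0 (τ x - t₀) x η * w x) := fun x => by
      have e0 : egE 0 (τ x) x η = egE 0 t₀ 0 η * egE 0 (τ x - t₀) x η := by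
        unfold egE
        rw [← Complex.exp_add, inner_zero_left]
        congr 1
        push_cast
        ring
      rw [e0, mul_assoc]
    unfold egGam
    simp_rw [e]
    rw [integral_const_mul, norm_mul, eg_E_norm_zero, one_mul]
  simp_rw [h2]
  exact h1

theorem br_psi_dat : Dat (1 / 2) (fun ζ : E n => (brPsi n ζ : ℂ)) := by
  have hc : Continuous fun ζ : E n => (brPsi n ζ : ℂ) := Complex.continuous_ofReal.comp (brPsi n).continuous
  refine ⟨hc.measurable, fun ξ hξ => ?_, ?_⟩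
  · have h1 : brPsi n ξ ≠ 0 := fun h => hξ (by rw [h]; simp)
    have h2 : ξ ∈ Function.support (brPsi n) := h1
    rw [(brPsi n).support_eq, mem_ball_zero_iff] at h2
    exact h2.le
  · exact hc.memLp_of_hasCompactSupport ((brPsi n).hasCompactSupport.comp_left (g := fun r : ℝ => (r : ℂ)) Complex.ofReal_zero)

theorem br_H_cont : Continuous (brH : ST n → ℂ) := inf_ext_continuous br_psi_dat

theorem br_H_bound (n : ℕ) : ∃ C : ℝ, ∀ X : ST n, ‖brH X‖ ≤ C := ⟨_, fun X => inf_ext_bound br_psi_dat X⟩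

theorem br_pk_cont (L : ℝ) (α : BrI n) : Continuous (brPk L α) := by
  unfold brPk
  have h1 : Continuous fun z : ST n => car (brOm L α.1) z :=
    inf_car_continuous.comp (f := fun z : ST n => (brOm L α.1, z)) (continuous_const.prodMk continuous_id)
  exact (continuous_const.mul h1).mul (br_H_cont.comp (br_chart_cont _ _ _ _))

/-- **LEAF L-257-BR-PKI.**  `brPk L α` is continuous (`inf_car_continuous`, `chart` continuous, `brH = ext ψ` continuous: `inf_ext_continuous` with `Dat (1/2) ψ`, or `continuous_of_dominated`) and bounded (`‖car‖ = 1`, `‖brH X‖ ≤ ∫ ψ`);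
`Measure.integrableOn_of_bounded`, `A` has finite measure (`hd.sub`, `measure_ball_lt_top`), `br_phi_meas`, `hd.mw`, `hd.w1`. -/
theorem br_pk_integrable {L : ℝ} (hL : 0 < L) {x₀ : E n} {A : Set (E n)} {τ : E n → ℝ} {w : E n → ℂ} (hd : EgDat x₀ A τ w) (α : BrI n) :
    IntegrableOn (fun x => w x * brPk L α (brPhi L τ x)) A := by
  obtain ⟨C, hC⟩ := br_H_bound n
  have hfin : volume A < ⊤ := (measure_mono hd.sub).trans_lt measure_ball_lt_top
  refine Measure.integrableOn_of_bounded (M := L ^ (-(n : ℝ) / 2) * C) hfin.ne ?_ (Filter.Eventually.of_forall fun x => ?_)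
  · exact (hd.mw.mul ((br_pk_cont L α).measurable.comp (br_phi_meas L hd.mτ))).aestronglyMeasurable
  · rw [norm_mul]
    have h1 : ‖brPk L α (brPhi L τ x)‖ ≤ L ^ (-(n : ℝ) / 2) * C := by
      unfold brPk
      rw [norm_mul, norm_mul, inf_car_norm, mul_one, Complex.norm_real, Real.norm_of_nonneg (Real.rpow_nonneg hL.le _)]
      exact mul_le_mul_of_nonneg_left (hC _) (Real.rpow_nonneg hL.le _)
    calc ‖w x‖ * ‖brPk L α (brPhi L τ x)‖ ≤ 1 * (L ^ (-(n : ℝ) / 2) * C) :=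
          mul_le_mul (hd.w1 x) h1 (norm_nonneg _) zero_le_one
      _ = _ := one_mul _

/-- `ℓ²` duality over a finite set of labels -/
theorem br_dual {L : ℝ} (hL : 0 < L) {x₀ : E n} {A : Set (E n)} {τ : E n → ℝ} {w : E n → ℂ} (hd : EgDat x₀ A τ w) (S : Finset (BrI n)) {K : ℝ} (hK : 0 ≤ K)
    (h : ∀ c : BrI n → ℂ, ∫⁻ x in A, ‖∑ α ∈ S, c α * brPk L α (brPhi L τ x)‖ₑ ≤ ENNReal.ofReal (K * Real.sqrt (energy S c))) :
    ∑ α ∈ S, ‖brCo L A τ w α‖ ^ 2 ≤ K ^ 2 := by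
  set a : BrI n → ℂ := brCo L A τ w with ha
  set c : BrI n → ℂ := fun α => conj (a α) with hc
  set En : ℝ := ∑ α ∈ S, ‖a α‖ ^ 2 with hEn
  have hEn0 : 0 ≤ En := Finset.sum_nonneg fun α _ => by positivity
  have hen : energy S c = En := by
    unfold energy
    refine Finset.sum_congr rfl fun α _ => ?_
    rw [hc]
    simp only [Complex.norm_conj]
  have h1 : ((En : ℝ) : ℂ) = ∫ x in A, w x * ∑ α ∈ S, c α * brPk L α (brPhi L τ x) := by
    have e1 : ∀ x, w x * ∑ α ∈ S, c α * brPk L α (brPhi L τ x) = ∑ α ∈ S, c α * (w x * brPk L α (brPhi L τ x)) := fun x => by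
      rw [Finset.mul_sum]
      refine Finset.sum_congr rfl fun α _ => ?_
      ring
    simp only [e1]
    rw [integral_finsetSum S fun α _ => (br_pk_integrable hL hd α).const_mul (c α)]
    rw [hEn]
    push_cast
    refine Finset.sum_congr rfl fun α _ => ?_
    rw [integral_const_mul]
    show _ = conj (a α) * a α
    rw [Complex.conj_mul']
  have h2 : ENNReal.ofReal En ≤ ENNReal.ofReal (K * Real.sqrt En) := by
    calc ENNReal.ofReal En = ‖((En : ℝ) : ℂ)‖ₑ := by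
          rw [← ofReal_norm, Complex.norm_real, Real.norm_of_nonneg hEn0]
      _ ≤ ∫⁻ x in A, ‖w x * ∑ α ∈ S, c α * brPk L α (brPhi L τ x)‖ₑ := by
          rw [h1]
          exact enorm_integral_le_lintegral_enorm _
      _ ≤ ∫⁻ x in A, ‖∑ α ∈ S, c α * brPk L α (brPhi L τ x)‖ₑ := by
          refine lintegral_mono fun x => ?_
          rw [enorm_mul]
          calc ‖w x‖ₑ * ‖∑ α ∈ S, c α * brPk L α (brPhi L τ x)‖ₑ ≤ 1 * ‖∑ α ∈ S, c α * brPk L α (brPhi L τ x)‖ₑ := by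
                refine mul_le_mul_left ?_ _
                rw [← ofReal_norm, ← ENNReal.ofReal_one]
                exact ENNReal.ofReal_le_ofReal (hd.w1 x)
            _ = _ := one_mul _
      _ ≤ ENNReal.ofReal (K * Real.sqrt En) := by
          rw [← hen]
          exact h c
  have h3 : En ≤ K * Real.sqrt En := (ENNReal.ofReal_le_ofReal_iff (by positivity)).1 h2
  have h4 : Real.sqrt En ≤ K := by
    by_contra hlt
    push Not at hlt
    have hs : 0 < Real.sqrt En := lt_of_le_of_lt hK hlt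
    have : K * Real.sqrt En < Real.sqrt En * Real.sqrt En := mul_lt_mul_of_pos_right hlt hs
    rw [Real.mul_self_sqrt hEn0] at this
    linarith
  calc En = Real.sqrt En ^ 2 := (Real.sq_sqrt hEn0).symm
    _ ≤ K ^ 2 := pow_le_pow_left₀ (Real.sqrt_nonneg _) h4 2

/-- exponent arithmetic: `N^n (N^{1/2})^{-2e} = N^{2s}` -/
theorem br_expo (hn : 1 ≤ n) {N : ℝ} (hN : 0 < N) : N ^ n * (Real.sqrt N ^ (-eex n)) ^ 2 = N ^ (2 * egs n) := by
  have hn0 : (0 : ℝ) < (n : ℝ) + 1 := by positivity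
  rw [Real.sqrt_eq_rpow, ← Real.rpow_mul hN.le, ← Real.rpow_natCast (N ^ _) 2, ← Real.rpow_mul hN.le, ← Real.rpow_natCast N n,
    ← Real.rpow_add hN]
  congr 1
  unfold eex egs
  push_cast
  field_simp
  ring

theorem br_short0 (hn : 1 ≤ n) (W : WCon) (X : WExp) (hp : 2 < X.p) (hM : n + 2 ≤ W.M) (hT : 1 ≤ W.T₀) (hCb : 1 ≤ W.Cb)
    (hin : ∀ (L : ℝ) (v : E n) (S : Finset (BrI n)), 1 ≤ L → (∀ α ∈ S, ‖brOm L α.1‖ ≤ 14) → (brArr L v).In S W.K)
    (hW : ∀ L : ℝ, 1 ≤ L → WeakAt n W X L 1) : ∃ C : ℝ, 0 ≤ C ∧ EgShort0 n X.p C := by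
  obtain ⟨m, hm, hadm⟩ := br_adm n W hM hT hCb
  obtain ⟨C₁, hC₁, hlay⟩ := br_layer n W X (by linarith) hm
  set I : ℝ := ∫ v : E n, brWt v with hI
  have hI0 : 0 ≤ I := integral_nonneg fun v => (br_wt_pos v).le
  refine ⟨(2 * I * C₁) ^ 2 / (2 * Real.pi) ^ n, by positivity, ?_⟩
  intro j x₀ A τ w hd hτ
  set N : ℝ := (2 : ℝ) ^ j with hN
  have hN0 : 0 < N := by positivity
  have hN1 : 1 ≤ N := one_le_pow₀ one_le_two
  set L : ℝ := Real.sqrt N with hL
  have hL1 : 1 ≤ L := by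
    rw [hL, Real.one_le_sqrt]
    exact hN1
  have hL0 : 0 < L := lt_of_lt_of_le one_pos hL1
  have hL2 : L ^ 2 = N := Real.sq_sqrt hN0.le
  have hτ' : ∀ x ∈ A, τ x ∈ Set.Icc (0 : ℝ) (1 / L ^ 2) := by
    rw [hL2]
    exact hτ
  set a : ℝ := (volume A).toReal with ha
  have ha0 : 0 ≤ a := ENNReal.toReal_nonneg
  set K : ℝ := 2 * I * C₁ * L ^ (-eex n) * a ^ (1 - 1 / X.p) with hK
  have hK0 : 0 ≤ K := by positivity
  have hS : ∀ S : Finset (BrI n), (∀ α ∈ S, ‖brOm L α.1‖ ≤ 14) → ∑ α ∈ S, ‖brCo L A τ w α‖ ^ 2 ≤ K ^ 2 := by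
    intro S hS
    refine br_dual hL0 hd S hK0 fun c => ?_
    have h1 := br_sum_le hL0 hd.mA hd.mτ hτ' S c
      (ENNReal.ofReal (C₁ * L ^ (-eex n) * a ^ (1 - 1 / X.p) * Real.sqrt (energy S c)))
      fun v => hlay L x₀ A τ w v S c hL1 hd (hW L hL1) (hin L v S hL1 hS) (hadm L x₀ A τ w v S hL1 hd hτ' hS)
    refine h1.trans (le_of_eq ?_)
    have e2 : (2 : ℝ≥0∞) = ENNReal.ofReal 2 := by simp
    have e3 : K * Real.sqrt (energy S c) = 2 * I * (C₁ * L ^ (-eex n) * a ^ (1 - 1 / X.p) * Real.sqrt (energy S c)) := by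
      rw [hK]
      ring
    rw [e3, ENNReal.ofReal_mul (p := 2 * I) (by positivity), ENNReal.ofReal_mul (p := 2) (by norm_num), ← e2]
  have h2 := br_ann_le hn hL1 hd (sq_nonneg K) hS
  rw [hL2] at h2
  refine h2.trans (le_of_eq ?_)
  have e1 : (a ^ (1 - 1 / X.p)) ^ 2 = a ^ (2 - 2 / X.p) := by
    rw [← Real.rpow_natCast, ← Real.rpow_mul ha0]
    congr 1
    push_cast
    ring
  have e2 := br_expo hn hN0
  rw [← hL] at e2
  rw [hK, ← e2, ← e1, div_pow]
  ring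

/-- **THE BRIDGE.** -/
theorem br_main (hn : 1 ≤ n) (W : WCon) (hR : 3 ≤ W.K.R) (hω : 14 ≤ W.K.Rω) (hm : (4 * n + 1) ^ n ≤ W.K.m₀) (hM : n + 2 ≤ W.M) (hT : 1 ≤ W.T₀)
    (hCb : 1 ≤ W.Cb) (h : WeakStmt n W) : ∃ p C : ℝ, 2 < p ∧ 0 ≤ C ∧ EgShort n p C := by
  obtain ⟨J, hJ⟩ := h
  obtain ⟨B, -, hB⟩ := br_prof n J
  obtain ⟨X, hp, -, -, -, hW⟩ := hJ B
  obtain ⟨C, hC, hS⟩ := br_short0 hn (W.wJB J B) X hp hM hT hCb
    (fun L v S hL hS => inf_in_mono (br_in hn hB hL v S hS) (Finset.Subset.refl S) le_rfl hR le_rfl hω hm)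
    (fun L hL => hW L 1 le_rfl hL)
  exact ⟨X.p, C, hp, hC, br_shift hS⟩

end Claimed.Agent.R257
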