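import Claimed.Agent.R257.End.Defs
import Claimed.Agent.R257.Weak.Choice
import Claimed.Agent.R257.Infra.Alg

/-!
# ROW 257 (S0497), THE BRIDGE `w:weak ⟹ EgShort`, definitions          (architect helper194)          CONTRACT
Paper: H `endpoint.tex` l.16-170 (`e:compact-layers`, `e:short-time`), done on the DUAL side, so that no convergence of packet expansions is needed.
Chain:  `S0497 ⟸ eg_main (End/Main) ⟸ EgShort n p C ⟸ br_main (Br/Main) ⟸ WeakStmt n W (Weak/Choice)`.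

NOTATION.  `N = L² = 2^j`;  `Φ x = (N x, N² τ x)` (`brPhi`);  `ξ = 2π η / N`;  caps `ξ = ω_k + ζ / L`, `ζ ∈ [-δ, δ)^n`, `δ = 1/(4n)`, `ω_k = k/(2 n L)` (`brOm`), `k ∈ ℤ^n`;
`ψ = brPsi` bump (`1` on `|ζ| ≤ 1/4`, `0` off `|ζ| < 1/2`);   `H = brH = ext ψ` the exact profile;   exact packets `P_{k,m}(z) = L^{-n/2} car ω_k z · H(chart L ω_k (2π L m) 0 z)` (`brPk`);
dual coefficients `a_{k,m} = ∫_A w(x) P_{k,m}(Φ x) dx` (`brCo`).
PLAN.  (1) Parseval on every cap (Fourier series of `ψ Γ` on the unit torus): `∫_{annulus} |Γ|² ≤ (N/2π)^n ∑_{k,m} |a_{k,m}|²`   (`Br/Pars`).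
(2) `κ̌(σ) H(u,σ)` (`brHH`) is a SCHWARTZ function on `ST n`: it is the Fourier transform of the compactly supported smooth `ψ(ζ) κ(s + |ζ|²)`;  `|κ̌| ≥ 1/2` on `[0,1]`   (`Br/Prof`).
(3) CONTINUOUS partition `1 = ∫ b(u - v) dv`: on the slab `κ̌ P_α = ∫ (1+|v|)^{-n-1} atom_{v,α} dv`, `atom_v` = atoms of the compact array `brArr L v` (intercepts shifted by `L v`, profile `brPf v`), all in ONE class   (`Br/Prof`, `Br/Sup`).
(4) the graph measure `brMu = N^n Φ_*(dx|_A)` is admissible with `χ = D = 1`;  `WeakAt` + layer cake: `∫_A |fld_v ∘ Φ| ≤ C L^{-e} |A|^{1-1/p} energy^{1/2}`   (`Br/Meas`).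
(5) `ℓ²` duality over finite sets of labels   (`Br/Main`).
-/

set_option autoImplicit false

namespace Claimed.Agent.R257

open MeasureTheory Metric Set
open scoped ENNReal ContDiff InnerProductSpace

variable {n : ℕ}

/-- labels `(k, m)`: cap, intercept -/
abbrev BrI (n : ℕ) : Type := (Fin n → ℤ) × (Fin n → ℤ)

/-- lattice vector -/
noncomputable def brVec (k : Fin n → ℤ) : E n := WithLp.toLp 2 fun i => (k i : ℝ)

/-- cap centre `ω_k = k / (2 n L)` -/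
noncomputable def brOm (L : ℝ) (k : Fin n → ℤ) : E n := (1 / (2 * (n : ℝ) * L)) • brVec k

/-- frequency bump `ψ` -/
noncomputable def brPsi (n : ℕ) : ContDiffBump (0 : E n) := ⟨1 / 4, 1 / 2, by norm_num, by norm_num⟩

/-- vertical bump; `κ = brKap.normed volume` -/
noncomputable def brKap : ContDiffBump (0 : ℝ) := ⟨1 / 4, 1 / 2, by norm_num, by norm_num⟩

/-- `κ̌(σ) = ∫ κ(s) e^{iσs} ds` -/
noncomputable def brKh (σ : ℝ) : ℂ := ∫ s, (brKap.normed volume s : ℂ) * Complex.exp (Complex.I * ((σ * s : ℝ) : ℂ))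

/-- the exact profile `H(u,σ) = ∫ ψ(ζ) e^{i(u·ζ - σ|ζ|²)} dζ` -/
noncomputable def brH (X : ST n) : ℂ := ext (fun ζ => (brPsi n ζ : ℂ)) X

/-- the Schwartz profile `κ̌(σ) H(u,σ)` -/
noncomputable def brHH (X : ST n) : ℂ := brKh X.2 * brH X

/-- spatial bump; `b = (brB n).normed volume`, `∫ b = 1` -/
noncomputable def brB (n : ℕ) : ContDiffBump (0 : E n) := ⟨1, 2, one_pos, one_lt_two⟩

/-- time cut-off `θ`: `1` on `[-1/2, 3/2]`, `0` off `(-3/2, 5/2)` -/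
noncomputable def brTh : ContDiffBump (1 / 2 : ℝ) := ⟨1, 2, one_pos, one_lt_two⟩

/-- the compact cut-off `b(u) θ(σ)` -/
noncomputable def brCut (X : ST n) : ℝ := (brB n).normed volume X.1 * brTh X.2

/-- the weight `(1+|v|)^{-n-1}` -/
noncomputable def brWt (v : E n) : ℝ := ((1 + ‖v‖) ^ (n + 1))⁻¹

/-- the normalised compact profile of the layer `v` -/
noncomputable def brPf (v : E n) (X : ST n) : ℂ := (((1 + ‖v‖) ^ (n + 1) * brCut X : ℝ) : ℂ) * brHH (X.1 + v, X.2)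

/-- the compact array of the layer `v` -/
noncomputable def brArr (L : ℝ) (v : E n) : Arr n (BrI n) where
  L := L
  om := fun α => brOm L α.1
  y := fun α => (2 * Real.pi * L) • brVec α.2 + L • v
  tc := fun _ => 0
  pf := fun _ => brPf v

/-- the exact packet -/
noncomputable def brPk (L : ℝ) (α : BrI n) (z : ST n) : ℂ :=
  ((L ^ (-(n : ℝ) / 2) : ℝ) : ℂ) * car (brOm L α.1) z * brH (chart L (brOm L α.1) ((2 * Real.pi * L) • brVec α.2) 0 z)

/-- the scaled graph map `x ↦ (N x, N² τ x)`, `N = L²` -/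
noncomputable def brPhi (L : ℝ) (τ : E n → ℝ) (x : E n) : ST n := (L ^ 2 • x, L ^ 4 * τ x)

/-- the scaled graph measure -/
noncomputable def brMu (L : ℝ) (A : Set (E n)) (τ : E n → ℝ) : Measure (ST n) :=
  ENNReal.ofReal ((L ^ 2) ^ n) • (volume.restrict A).map (brPhi L τ)

/-- the dual coefficients -/
noncomputable def brCo (L : ℝ) (A : Set (E n)) (τ : E n → ℝ) (w : E n → ℂ) (α : BrI n) : ℂ :=
  ∫ x in A, w x * brPk L α (brPhi L τ x)

/-- native cap coordinate `ζ = L (2π η / L² - ω_k)` -/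
noncomputable def brInv (L : ℝ) (k : Fin n → ℤ) (η : E n) : E n := L • ((2 * Real.pi / L ^ 2) • η - brOm L k)

/-- its inverse `η = (L²/2π)(ω_k + ζ/L)` -/
noncomputable def brAff (L : ℝ) (k : Fin n → ℤ) (ζ : E n) : E n := (L ^ 2 / (2 * Real.pi)) • (brOm L k + L⁻¹ • ζ)

/-- the cap `Q_k` in the variable `η` -/
def brQ (L : ℝ) (k : Fin n → ℤ) : Set (E n) := {η | ∀ i, -(1 / (4 * (n : ℝ))) ≤ brInv L k η i ∧ brInv L k η i < 1 / (4 * (n : ℝ))}

/-- `EgShort` with `t₀ = 0` -/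
def EgShort0 (n : ℕ) (p C : ℝ) : Prop :=
  ∀ (j : ℕ) (x₀ : EgV n) (A : Set (EgV n)) (τ : EgV n → ℝ) (w : EgV n → ℂ), EgDat x₀ A τ w →
    (∀ x ∈ A, τ x ∈ Set.Icc (0 : ℝ) (1 / 2 ^ j)) →
    ∫ η in {η : EgV n | (2 : ℝ) ^ j / 2 ≤ ‖η‖ ∧ ‖η‖ ≤ 2 * 2 ^ j}, ‖egGam A τ w η‖ ^ 2
      ≤ C * ((2 : ℝ) ^ j) ^ (2 * egs n) * (volume A).toReal ^ (2 - 2 / p)

/-- the class of the arrays `brArr L v` -/
def brCls (n J : ℕ) (B : ℝ) : Cls := ⟨J, 3, B, 14, (4 * n + 1) ^ n⟩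

end Claimed.Agent.R257
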