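import Claimed.Agent.R257.Br.Prof

/-!
# ROW 257 (S0497), THE BRIDGE, unit BR-M: THE GRAPH MEASURE IS ADMISSIBLE; ONE LAYER          (architect helper194)          CONTRACT
Paper: H `endpoint.tex` l.140-165.  Every `sorry` is a leaf `L-257-BR-*`.  Statements are frozen; prove IN PLACE, auxiliary lemmas directly above your theorem, prefix `br_`.
-/

set_option autoImplicit false

namespace Claimed.Agent.R257

open MeasureTheory Metric Set
open scoped ENNReal ContDiff InnerProductSpace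

variable {n : ℕ}

theorem br_phi_meas (L : ℝ) {τ : E n → ℝ} (hτ : Measurable τ) : Measurable (brPhi L τ) :=
  (measurable_const_smul _).prodMk (hτ.const_mul _)

theorem br_mu_apply (L : ℝ) {A : Set (E n)} (hA : MeasurableSet A) {τ : E n → ℝ} (hτ : Measurable τ) {S : Set (ST n)} (hS : MeasurableSet S) :
    brMu L A τ S = ENNReal.ofReal ((L ^ 2) ^ n) * volume (brPhi L τ ⁻¹' S ∩ A) := by
  unfold brMu
  rw [Measure.smul_apply, Measure.map_apply (br_phi_meas L hτ) hS, Measure.restrict_apply (br_phi_meas L hτ hS), smul_eq_mul]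

/-- **LEAF L-257-BR-GROW.**  `closedBall z r = closedBall z.1 r ×ˢ closedBall z.2 r` (`closedBall_prod_same`); `Φ x ∈ closedBall z r ⟹ x ∈ closedBall (L⁻² z.1) (r/L²)`; `Measure.addHaar_closedBall`, `finrank_euclideanSpace_fin`:
`L^{2n} (r/L²)^n |B_1| = r^n |B_1|`.   (`br_mu_apply`; `A` may be replaced by `univ` by monotonicity.) -/
theorem br_grow {L : ℝ} (hL : 0 < L) {A : Set (E n)} (hA : MeasurableSet A) {τ : E n → ℝ} (hτ : Measurable τ) :
    Grow (brMu L A τ) (volume (closedBall (0 : E n) 1)).toReal n := by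
  intro z r hr
  have hL2 : 0 < L ^ 2 := by positivity
  have hr0 : 0 ≤ r := by linarith
  rw [br_mu_apply L hA hτ measurableSet_closedBall]
  have hsub : brPhi L τ ⁻¹' closedBall z r ∩ A ⊆ closedBall ((L ^ 2)⁻¹ • z.1) (r / L ^ 2) := by
    rintro x ⟨hx, -⟩
    have h1 : dist (L ^ 2 • x) z.1 ≤ r := (le_max_left _ _).trans (mem_closedBall.1 hx)
    rw [mem_closedBall, dist_eq_norm]
    have h2 : x - (L ^ 2)⁻¹ • z.1 = (L ^ 2)⁻¹ • (L ^ 2 • x - z.1) := by
      rw [smul_sub, smul_smul, inv_mul_cancel₀ hL2.ne', one_smul]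
    rw [h2, norm_smul, Real.norm_of_nonneg (by positivity), ← dist_eq_norm, div_eq_inv_mul]
    exact mul_le_mul_of_nonneg_left h1 (by positivity)
  have hfin : volume (closedBall (0 : E n) 1) ≠ ⊤ := measure_closedBall_lt_top.ne
  calc ENNReal.ofReal ((L ^ 2) ^ n) * volume (brPhi L τ ⁻¹' closedBall z r ∩ A)
      ≤ ENNReal.ofReal ((L ^ 2) ^ n) * volume (closedBall ((L ^ 2)⁻¹ • z.1) (r / L ^ 2)) := by
        gcongr
    _ = ENNReal.ofReal ((L ^ 2) ^ n) * (ENNReal.ofReal ((r / L ^ 2) ^ n) * volume (closedBall (0 : E n) 1)) := by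
        rw [Measure.addHaar_closedBall' _ _ (by positivity), finrank_euclideanSpace_fin]
    _ = ENNReal.ofReal ((volume (closedBall (0 : E n) 1)).toReal * r ^ (n : ℝ)) := by
        rw [← mul_assoc, ← ENNReal.ofReal_mul (by positivity), ← mul_pow, mul_div_cancel₀ _ hL2.ne',
          Real.rpow_natCast, mul_comm, ENNReal.ofReal_mul ENNReal.toReal_nonneg, ENNReal.ofReal_toReal hfin]

/-- **LEAF L-257-BR-SLAB.**  On `A`: `0 ≤ L⁴ τ x ≤ L² ≤ T₀ L²`; the preimage of `{T₀ L² < |z.2|}` does not meet `A`. -/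
theorem br_slab {L T₀ : ℝ} (hL : 0 < L) (hT : 1 ≤ T₀) {A : Set (E n)} (hA : MeasurableSet A) {τ : E n → ℝ} (hτ : Measurable τ)
    (h : ∀ x ∈ A, τ x ∈ Set.Icc (0 : ℝ) (1 / L ^ 2)) : Slab (brMu L A τ) (T₀ * L ^ 2) := by
  have hm : MeasurableSet {z : ST n | T₀ * L ^ 2 < |z.2|} :=
    measurableSet_lt measurable_const measurable_snd.abs
  unfold Slab
  rw [br_mu_apply L hA hτ hm]
  have he : brPhi L τ ⁻¹' {z : ST n | T₀ * L ^ 2 < |z.2|} ∩ A = ∅ := by
    rw [Set.eq_empty_iff_forall_notMem]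
    rintro x ⟨hx, hxA⟩
    have hx' : T₀ * L ^ 2 < |L ^ 4 * τ x| := hx
    obtain ⟨h0, h1⟩ := h x hxA
    have hL2 : 0 < L ^ 2 := by positivity
    have h2 : L ^ 4 * τ x ≤ L ^ 2 := by
      calc L ^ 4 * τ x ≤ L ^ 4 * (1 / L ^ 2) := mul_le_mul_of_nonneg_left h1 (by positivity)
        _ = L ^ 2 := by field_simp
    rw [abs_of_nonneg (by positivity)] at hx'
    nlinarith
  rw [he, measure_empty, mul_zero]

/-- **LEAF L-257-BR-SLAB.**  On `A ⊆ ball x₀ 1`: `‖L² x - L² x₀‖ < L² ≤ Cb L²`. -/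
theorem br_box {L Cb : ℝ} (hL : 0 < L) (hC : 1 ≤ Cb) {A : Set (E n)} (hA : MeasurableSet A) {τ : E n → ℝ} (hτ : Measurable τ) {x₀ : E n}
    (h : A ⊆ ball x₀ 1) : InBall (brMu L A τ) (L ^ 2 • x₀) (Cb * L ^ 2) := by
  have hm : MeasurableSet {z : ST n | Cb * L ^ 2 < ‖z.1 - L ^ 2 • x₀‖} :=
    measurableSet_lt measurable_const (measurable_fst.sub_const _).norm
  unfold InBall
  rw [br_mu_apply L hA hτ hm]
  have he : brPhi L τ ⁻¹' {z : ST n | Cb * L ^ 2 < ‖z.1 - L ^ 2 • x₀‖} ∩ A = ∅ := by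
    rw [Set.eq_empty_iff_forall_notMem]
    rintro x ⟨hx, hxA⟩
    have hx' : Cb * L ^ 2 < ‖L ^ 2 • x - L ^ 2 • x₀‖ := hx
    have hL2 : 0 < L ^ 2 := by positivity
    have h1 : ‖x - x₀‖ < 1 := by
      have := h hxA
      rwa [mem_ball, dist_eq_norm] at this
    rw [← smul_sub, norm_smul, Real.norm_of_nonneg hL2.le] at hx'
    nlinarith
  rw [he, measure_empty, mul_zero]

/-- **LEAF L-257-BR-ADM.**  `C` from `inf_tubeMom_of_grow n W.M hM W.T₀ 14`, `m = (C + 1) |B_1|`.  `Grow`, `Dens` (`= Grow` at `r = 1`) and `TubeMom` are monotone in `m` (`ENNReal.ofReal_le_ofReal`); `br_grow`, `br_slab`, `br_box`. -/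
theorem br_adm (n : ℕ) (W : WCon) (hM : n + 2 ≤ W.M) (hT : 1 ≤ W.T₀) (hCb : 1 ≤ W.Cb) : ∃ m : ℝ, 0 ≤ m ∧
    ∀ (L : ℝ) (x₀ : E n) (A : Set (E n)) (τ : E n → ℝ) (w : E n → ℂ) (v : E n) (S : Finset (BrI n)), 1 ≤ L → EgDat x₀ A τ w →
      (∀ x ∈ A, τ x ∈ Set.Icc (0 : ℝ) (1 / L ^ 2)) → (∀ α ∈ S, ‖brOm L α.1‖ ≤ 14) → Adm W (brArr L v) S (brMu L A τ) m 1 1 := by
  obtain ⟨C, hC, hmom⟩ := inf_tubeMom_of_grow n W.M hM W.T₀ 14
  set b : ℝ := (volume (closedBall (0 : E n) 1)).toReal with hb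
  have hb0 : 0 ≤ b := ENNReal.toReal_nonneg
  refine ⟨(C + 1) * b, by positivity, ?_⟩
  intro L x₀ A τ w v S hL hd hτ hom
  have hL0 : 0 < L := by linarith
  have hg := br_grow hL0 hd.mA hd.mτ (A := A) (τ := τ)
  have hs := br_slab hL0 hT hd.mA hd.mτ hτ
  have hbb : b ≤ (C + 1) * b := by nlinarith
  have hg' : Grow (brMu L A τ) ((C + 1) * b) n := fun z r hr =>
    (hg z r hr).trans (ENNReal.ofReal_le_ofReal (mul_le_mul_of_nonneg_right hbb (by positivity)))
  refine ⟨⟨hg', hs, fun z => ?_, fun α hα => ?_⟩, ⟨L ^ 2 • x₀, br_box hL0 hCb hd.mA hd.mτ hd.sub⟩⟩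
  · have := hg' z 1 le_rfl
    rwa [Real.one_rpow] at this
  · refine (hmom (BrI n) (brMu L A τ) (brArr L v) S b hb0 hg hs hL hom α hα).trans
      (ENNReal.ofReal_le_ofReal ?_)
    have hLp : 0 ≤ (brArr L v).L ^ ((n : ℝ) + 1) := Real.rpow_nonneg hL0.le _
    have : C * b ≤ (C + 1) * b := by nlinarith
    gcongr

/-- **LEAF L-257-BR-WK.**  Weak type ⟹ restricted strong type (paper free).
PLAN.  `a = μ univ`.  `a = 0` or `K = 0`: trivial (`K = 0`: `F ≤ 0` a.e.).  Else `λ₀ = K a^{-1/p}`; EITHER layer cake (`lintegral_eq_lintegral_meas_le`): `∫ F = ∫_0^∞ μ{F ≥ λ} dλ ≤ λ₀ a + ∫_{λ₀}^∞ (K/λ)^p dλ = (p/(p-1)) K a^{1-1/p}`;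
OR dyadic: `F ≤ λ₀ + ∑_i 2^{i+1} λ₀ 1_{2^i λ₀ ≤ F}` pointwise, `∫ F ≤ λ₀ a + ∑_i 2^{i+1} λ₀ (K / (2^i λ₀))^p = λ₀ a (1 + 2 ∑_i 2^{-i(p-1)})`.   The constant is free. -/
theorem br_weak_strong {p : ℝ} (hp : 1 < p) : ∃ C : ℝ, 0 ≤ C ∧ ∀ (α : Type) [MeasurableSpace α] (μ : Measure α) [IsFiniteMeasure μ] (F : α → ℝ) (K : ℝ),
    Measurable F → (∀ x, 0 ≤ F x) → 0 ≤ K → (∀ lam : ℝ, 0 < lam → μ {x | lam ≤ F x} ≤ ENNReal.ofReal ((K / lam) ^ p)) →
    ∫⁻ x, ENNReal.ofReal (F x) ∂μ ≤ ENNReal.ofReal (C * K * (μ univ).toReal ^ (1 - 1 / p)) := by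
  have hp0 : 0 < p := by linarith
  have hp1 : 0 < p - 1 := by linarith
  refine ⟨1 + 1 / (p - 1), by positivity, ?_⟩
  intro α _ μ _ F K hF hF0 hK hw
  rw [lintegral_eq_lintegral_meas_le μ (Filter.Eventually.of_forall hF0) hF.aemeasurable]
  set a : ℝ := (μ univ).toReal with ha
  have ha0 : 0 ≤ a := ENNReal.toReal_nonneg
  have hau : μ univ = ENNReal.ofReal a := (ENNReal.ofReal_toReal (measure_ne_top μ univ)).symm
  rcases hK.eq_or_lt with rfl | hKpos
  · -- `K = 0`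
    have h0 : ∀ t ∈ Ioi (0 : ℝ), μ {x | t ≤ F x} = 0 := by
      intro t ht
      have := hw t ht
      rw [zero_div, Real.zero_rpow hp0.ne', ENNReal.ofReal_zero] at this
      exact le_antisymm this zero_le
    rw [setLIntegral_congr_fun measurableSet_Ioi h0]
    simp
  rcases ha0.eq_or_lt with ha' | hapos
  · -- `μ = 0`
    have h0 : ∀ t ∈ Ioi (0 : ℝ), μ {x | t ≤ F x} = 0 := by
      intro t _
      refine le_antisymm ((measure_mono (subset_univ _)).trans ?_) zero_le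
      rw [hau, ← ha', ENNReal.ofReal_zero]
    rw [setLIntegral_congr_fun measurableSet_Ioi h0]
    simp
  set l : ℝ := K * a ^ (-(1 / p)) with hl
  have hl0 : 0 < l := by positivity
  have hsplit : Ioi (0 : ℝ) = Ioc 0 l ∪ Ioi l := (Ioc_union_Ioi_eq_Ioi hl0.le).symm
  have h1 : ∫⁻ t in Ioc 0 l, μ {x | t ≤ F x} ≤ ENNReal.ofReal (l * a) := by
    calc ∫⁻ t in Ioc 0 l, μ {x | t ≤ F x} ≤ ∫⁻ _ in Ioc 0 l, ENNReal.ofReal a :=
          lintegral_mono fun t => (measure_mono (subset_univ _)).trans hau.le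
      _ = ENNReal.ofReal (l * a) := by
          rw [lintegral_const, Measure.restrict_apply MeasurableSet.univ, univ_inter, Real.volume_Ioc,
            sub_zero, mul_comm, ENNReal.ofReal_mul hl0.le]
  have hint : IntegrableOn (fun t : ℝ => K ^ p * t ^ (-p)) (Ioi l) :=
    (integrableOn_Ioi_rpow_of_lt (by linarith) hl0).const_mul _
  have h2 : ∫⁻ t in Ioi l, μ {x | t ≤ F x} ≤ ENNReal.ofReal (K ^ p * (l ^ (1 - p) / (p - 1))) := by
    calc ∫⁻ t in Ioi l, μ {x | t ≤ F x} ≤ ∫⁻ t in Ioi l, ENNReal.ofReal (K ^ p * t ^ (-p)) := by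
          refine setLIntegral_mono' measurableSet_Ioi fun t ht => ?_
          have ht0 : 0 < t := hl0.trans ht
          refine (hw t ht0).trans (le_of_eq ?_)
          rw [Real.div_rpow hK ht0.le, Real.rpow_neg ht0.le, div_eq_mul_inv]
      _ = ENNReal.ofReal (∫ t in Ioi l, K ^ p * t ^ (-p)) := by
          rw [ofReal_integral_eq_lintegral_ofReal hint]
          refine (ae_restrict_iff' measurableSet_Ioi).2 (Filter.Eventually.of_forall fun t ht => ?_)
          have ht0 : 0 < t := hl0.trans ht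
          positivity
      _ = ENNReal.ofReal (K ^ p * (l ^ (1 - p) / (p - 1))) := by
          rw [integral_const_mul, integral_Ioi_rpow_of_lt (by linarith) hl0]
          congr 2
          have e1 : -p + 1 = 1 - p := by ring
          rw [e1]
          have e2 : (1 - p) ≠ 0 := by linarith
          field_simp
          ring
  have e1 : l * a = K * a ^ (1 - 1 / p) := by
    rw [hl, mul_assoc, sub_eq_add_neg, add_comm (1 : ℝ), Real.rpow_add hapos, Real.rpow_one]
  have e2 : K ^ p * l ^ (1 - p) = K * a ^ (1 - 1 / p) := by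
    rw [hl, Real.mul_rpow hKpos.le (by positivity), ← mul_assoc, ← Real.rpow_add hKpos,
      ← Real.rpow_mul hapos.le]
    have e3 : p + (1 - p) = 1 := by ring
    have e4 : -(1 / p) * (1 - p) = 1 - 1 / p := by field_simp; ring
    rw [e3, e4, Real.rpow_one]
  calc ∫⁻ t in Ioi 0, μ {x | t ≤ F x}
      ≤ (∫⁻ t in Ioc 0 l, μ {x | t ≤ F x}) + ∫⁻ t in Ioi l, μ {x | t ≤ F x} := by
        rw [hsplit]; exact lintegral_union_le _ _ _
    _ ≤ ENNReal.ofReal (l * a) + ENNReal.ofReal (K ^ p * (l ^ (1 - p) / (p - 1))) := add_le_add h1 h2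
    _ = ENNReal.ofReal ((1 + 1 / (p - 1)) * K * a ^ (1 - 1 / p)) := by
        rw [← ENNReal.ofReal_add (by positivity) (by positivity)]
        congr 1
        rw [← mul_div_assoc, e1, e2]
        ring

theorem br_chart_cont (L : ℝ) (w y : E n) (t : ℝ) : Continuous (chart L w y t) := by
  have e : chart L w y t = fun z : ST n => (L⁻¹ • (z.1 - y - (2 * z.2) • w), z.2 / L ^ 2 - t) := rfl
  rw [e]
  refine Continuous.prodMk ?_ ?_
  · have h1 : Continuous fun z : ST n => (2 * z.2) • w := (continuous_const.mul continuous_snd).smul continuous_const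
    have h2 : Continuous fun z : ST n => z.1 - y := continuous_fst.sub continuous_const
    exact (h2.sub h1).const_smul (L⁻¹ : ℝ)
  · exact (continuous_snd.div_const _).sub continuous_const

theorem br_car_cont (w : E n) : Continuous fun z : ST n => car w z :=
  inf_car_continuous.comp (Continuous.prodMk (continuous_const (y := w)) continuous_id)

theorem br_atom_cont {ι : Type} {A : Arr n ι} {α : ι} (h : Continuous (A.pf α)) : Continuous (A.atom α) := by
  have h3 : Continuous fun z => A.pf α (chart A.L (A.om α) (A.y α) (A.tc α) z) := h.comp (br_chart_cont _ _ _ _)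
  have e : A.atom α = fun z => ((A.L ^ (-(n : ℝ) / 2) : ℝ) : ℂ) * car (A.om α) z * A.pf α (chart A.L (A.om α) (A.y α) (A.tc α) z) := rfl
  rw [e]
  exact (continuous_const.mul (br_car_cont _)).mul h3

/-- **LEAF L-257-BR-FC.**  A field of a class array is continuous (finite sum; `inf_car_continuous`; `chart` is continuous; the profiles are smooth). -/
theorem br_fld_cont {ι : Type} {A : Arr n ι} {s : Finset ι} {K : Cls} (hA : A.In s K) (c : ι → ℂ) : Continuous (A.fld s c) := by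
  have h0 : A.fld s c = fun z => ∑ α ∈ s, c α * A.atom α z := rfl
  rw [h0]
  exact continuous_finsetSum _ fun α hα => continuous_const.mul (br_atom_cont (hA.prof α hα).smooth.continuous)

/-- **LEAF L-257-BR-LAYER.**  One layer.
PLAN.  `F x = ‖fld (Φ x)‖`, `μ = volume.restrict A`.  For `lam > 0` put `g = lam L^e`: `wlev n a 1 g L = lam` (`Real.one_rpow`, `Real.rpow_neg`), `wset` is closed (`br_fld_cont`), `br_mu_apply`:
`L^{2n} |{x ∈ A : lam ≤ F x}| ≤ Cind m L^{2n} g^{-p} 1^{-σ} E^{p/2}`; cancel `L^{2n} > 0`; `= (K/lam)^p` with `K = (|Cind| m)^{1/p} L^{-e} E^{1/2}`.   `br_weak_strong`.   `C₁ = C (|Cind| m)^{1/p}`. -/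
theorem br_layer (n : ℕ) (W : WCon) (X : WExp) (hp : 1 < X.p) {m : ℝ} (hm : 0 ≤ m) : ∃ C₁ : ℝ, 0 ≤ C₁ ∧
    ∀ (L : ℝ) (x₀ : E n) (A : Set (E n)) (τ : E n → ℝ) (w : E n → ℂ) (v : E n) (S : Finset (BrI n)) (c : BrI n → ℂ), 1 ≤ L → EgDat x₀ A τ w →
      WeakAt n W X L 1 → (brArr L v).In S W.K → Adm W (brArr L v) S (brMu L A τ) m 1 1 →
      ∫⁻ x in A, ‖(brArr L v).fld S c (brPhi L τ x)‖ₑ
        ≤ ENNReal.ofReal (C₁ * L ^ (-eex n) * (volume A).toReal ^ (1 - 1 / X.p) * Real.sqrt (energy S c)) := by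
  obtain ⟨C, hC, hws⟩ := br_weak_strong hp
  have hp0 : 0 < X.p := by linarith
  set q : ℝ := |X.Cind| * m with hq
  have hq0 : 0 ≤ q := by positivity
  refine ⟨C * q ^ (1 / X.p), by positivity, ?_⟩
  intro L x₀ A τ w v S c hL hd HW hIn hAdm
  have hL0 : 0 < L := by linarith
  set En : ℝ := energy S c with hEn
  have hEn0 : 0 ≤ En := Finset.sum_nonneg fun _ _ => by positivity
  have hcont := br_fld_cont hIn c
  have hΦ := br_phi_meas L hd.mτ
  set F : E n → ℝ := fun x => ‖(brArr L v).fld S c (brPhi L τ x)‖ with hF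
  have hFm : Measurable F := (hcont.measurable.comp hΦ).norm
  have hfinA : volume A ≠ ⊤ := ne_top_of_le_ne_top measure_ball_lt_top.ne (measure_mono hd.sub)
  haveI : IsFiniteMeasure (volume.restrict A) := ⟨by
    rw [Measure.restrict_apply MeasurableSet.univ, univ_inter]; exact hfinA.lt_top⟩
  set K : ℝ := q ^ (1 / X.p) * L ^ (-eex n) * En ^ ((1 : ℝ) / 2) with hK
  have hK0 : 0 ≤ K := by positivity
  have hweak : ∀ lam : ℝ, 0 < lam → (volume.restrict A) {x | lam ≤ F x} ≤ ENNReal.ofReal ((K / lam) ^ X.p) := by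
    intro lam hlam
    set g : ℝ := lam * L ^ (eex n) with hg
    have hg0 : 0 < g := by positivity
    have hlev : wlev n X.a 1 g L = lam := by
      unfold wlev
      rw [Real.one_rpow, one_mul, hg, mul_assoc, ← Real.rpow_add hL0, add_neg_cancel, Real.rpow_zero, mul_one]
    have h1 := HW (BrI n) (brArr L v) S c (brMu L A τ) m 1 g rfl hIn (fun _ _ => rfl) hm one_pos le_rfl hg0 hAdm
    rw [hlev] at h1
    have hms : MeasurableSet (wset (brArr L v) S c lam) :=
      measurableSet_le measurable_const hcont.measurable.norm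
    rw [br_mu_apply L hd.mA hd.mτ hms] at h1
    have hset : {x | lam ≤ F x} = brPhi L τ ⁻¹' wset (brArr L v) S c lam := rfl
    rw [Measure.restrict_apply (measurableSet_le measurable_const hFm), hset]
    have hLn : 0 < (L ^ 2) ^ n := by positivity
    have e1 : L ^ (2 * (n : ℝ)) = (L ^ 2) ^ n := by
      rw [Real.rpow_mul hL0.le, Real.rpow_natCast]
      norm_num
    have e2 : (K / lam) ^ X.p = q * g ^ (-X.p) * En ^ (X.p / 2) := by
      have e3 : K / lam = q ^ (1 / X.p) * g⁻¹ * En ^ ((1 : ℝ) / 2) := by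
        rw [hK, hg, mul_inv, Real.rpow_neg hL0.le]
        field_simp
      rw [e3, Real.mul_rpow (by positivity) (by positivity), Real.mul_rpow (by positivity) (by positivity),
        ← Real.rpow_mul hq0, ← Real.rpow_mul hEn0, Real.inv_rpow hg0.le, Real.rpow_neg hg0.le]
      have e4 : 1 / X.p * X.p = 1 := by field_simp
      have e5 : (1 : ℝ) / 2 * X.p = X.p / 2 := by ring
      rw [e4, e5, Real.rpow_one]
    have h2 : wrhs n X m L g 1 En ≤ (L ^ 2) ^ n * (K / lam) ^ X.p := by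
      unfold wrhs
      rw [Real.one_rpow, mul_one, e1, e2, hq]
      have h3 : X.Cind * m ≤ |X.Cind| * m := mul_le_mul_of_nonneg_right (le_abs_self _) hm
      have h4 : 0 ≤ (L ^ 2) ^ n * g ^ (-X.p) * En ^ (X.p / 2) := by positivity
      calc X.Cind * m * (L ^ 2) ^ n * g ^ (-X.p) * En ^ (X.p / 2)
          = (X.Cind * m) * ((L ^ 2) ^ n * g ^ (-X.p) * En ^ (X.p / 2)) := by ring
        _ ≤ (|X.Cind| * m) * ((L ^ 2) ^ n * g ^ (-X.p) * En ^ (X.p / 2)) := mul_le_mul_of_nonneg_right h3 h4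
        _ = _ := by ring
    have h5 := h1.trans (ENNReal.ofReal_le_ofReal h2)
    rw [ENNReal.ofReal_mul hLn.le] at h5
    exact (ENNReal.mul_le_mul_iff_right (by simpa using hLn) ENNReal.ofReal_ne_top).1 h5
  have hmain := hws (E n) (volume.restrict A) F K hFm (fun _ => norm_nonneg _) hK0 hweak
  rw [Measure.restrict_apply MeasurableSet.univ, univ_inter] at hmain
  have e6 : ∀ x, ‖(brArr L v).fld S c (brPhi L τ x)‖ₑ = ENNReal.ofReal (F x) := fun x =>
    (ofReal_norm_eq_enorm _).symm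
  simp_rw [e6]
  refine hmain.trans (le_of_eq ?_)
  congr 1
  rw [hK, Real.sqrt_eq_rpow]
  ring

end Claimed.Agent.R257
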