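import Claimed.Agent.R257.Br.Defs

/-!
# ROW 257 (S0497), THE BRIDGE, unit BR-P: THE PROFILES AND THE CLASS OF THE LAYER ARRAYS          (architect helper194)          CONTRACT
Every `sorry` is a leaf `L-257-BR-*` (name in the docstring).  Statements are frozen (tell helper194 at once if one looks false or awkward); prove IN PLACE, auxiliary lemmas directly above your theorem, prefix `br_`.
-/

set_option autoImplicit false

namespace Claimed.Agent.R257

open MeasureTheory Metric Set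
open scoped ENNReal ContDiff InnerProductSpace FourierTransform

variable {n : ℕ}

/-- **LEAF L-257-BR-KH.**  `Re κ̌(σ) = ∫ κ(s) cos(σ s) ds ≥ cos(1/2) ∫ κ ≥ 1/2`: `κ ≥ 0`, `∫ κ = 1` (`ContDiffBump.integral_normed`), `κ(s) = 0` for `|s| ≥ 1/2` (`ContDiffBump.support_normed_eq`), `cos x ≥ 1 - x²/2` (`Real.one_sub_sq_div_two_le_cos`).
`‖z‖ ≥ Re z` (`Complex.re_le_norm`), `Re ∫ = ∫ Re` (`integral_re` / `reCLM.integral_comp_comm`). -/
theorem br_Kh_ge {σ : ℝ} (h0 : 0 ≤ σ) (h1 : σ ≤ 1) : 1 / 2 ≤ ‖brKh σ‖ := by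
  set κ : ℝ → ℝ := brKap.normed volume with hκ
  have hκc : Continuous κ := brKap.continuous_normed
  have hκs : HasCompactSupport κ := brKap.hasCompactSupport_normed
  have hc : Continuous fun s : ℝ => (κ s : ℂ) * Complex.exp (Complex.I * ((σ * s : ℝ) : ℂ)) :=
    (Complex.continuous_ofReal.comp hκc).mul
      (Complex.continuous_exp.comp (continuous_const.mul (Complex.continuous_ofReal.comp (continuous_const.mul continuous_id))))
  have hs : HasCompactSupport fun s : ℝ => (κ s : ℂ) * Complex.exp (Complex.I * ((σ * s : ℝ) : ℂ)) :=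
    (hκs.comp_left (g := fun r : ℝ => (r : ℂ)) Complex.ofReal_zero).mul_right
  have hi : Integrable fun s : ℝ => (κ s : ℂ) * Complex.exp (Complex.I * ((σ * s : ℝ) : ℂ)) := hc.integrable_of_hasCompactSupport hs
  have hre : (brKh σ).re = ∫ s, κ s * Real.cos (σ * s) := by
    unfold brKh
    rw [← Complex.reCLM_apply, ← Complex.reCLM.integral_comp_comm hi]
    refine integral_congr_ae (Filter.Eventually.of_forall fun s => ?_)
    show ((κ s : ℂ) * Complex.exp (Complex.I * ((σ * s : ℝ) : ℂ))).re = _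
    rw [Complex.re_ofReal_mul, mul_comm Complex.I, Complex.exp_ofReal_mul_I_re]
  have hi2 : Integrable fun s : ℝ => κ s * Real.cos (σ * s) :=
    (hκc.mul (Real.continuous_cos.comp (continuous_const.mul continuous_id))).integrable_of_hasCompactSupport hκs.mul_right
  have hi3 : Integrable fun s : ℝ => κ s * (1 / 2) := brKap.integrable_normed.mul_const _
  have hle : ∫ s, κ s * (1 / 2) ≤ ∫ s, κ s * Real.cos (σ * s) := by
    refine integral_mono hi3 hi2 fun s => ?_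
    by_cases hs : s ∈ ball (0 : ℝ) (1 / 2)
    · refine mul_le_mul_of_nonneg_left ?_ (brKap.nonneg_normed s)
      rw [mem_ball_zero_iff, Real.norm_eq_abs, abs_lt] at hs
      have h2 := Real.one_sub_sq_div_two_le_cos (x := σ * s)
      have h3 : (σ * s) ^ 2 ≤ 1 / 4 := by
        have a1 : |σ * s| ≤ 1 / 2 := by
          rw [abs_mul, abs_of_nonneg h0]
          have : |s| ≤ 1 / 2 := abs_le.2 ⟨hs.1.le, hs.2.le⟩
          nlinarith [abs_nonneg s]
        have := sq_le_sq' (by linarith [abs_le.1 a1 |>.1]) (abs_le.1 a1).2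
        nlinarith
      linarith
    · have : κ s = 0 := by
        have h4 := brKap.support_normed_eq (μ := volume)
        by_contra hne
        apply hs
        have h5 : s ∈ Function.support κ := hne
        rw [hκ, h4] at h5
        exact h5
      simp [this]
  rw [integral_mul_const, brKap.integral_normed, one_mul] at hle
  calc (1 : ℝ) / 2 ≤ (brKh σ).re := by rw [hre]; exact hle
    _ ≤ ‖brKh σ‖ := Complex.re_le_norm _

/-- the compactly supported smooth function whose Fourier transform is `brHH` -/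
noncomputable def brG (q : ST n) : ℂ := (brPsi n q.1 : ℂ) * (brKap.normed volume (q.2 + ‖q.1‖ ^ 2) : ℂ)

theorem br_G_smooth : ContDiff ℝ ∞ (brG : ST n → ℂ) := by
  unfold brG
  have h1 : ContDiff ℝ ∞ fun q : ST n => brPsi n q.1 := (brPsi n).contDiff.comp contDiff_fst
  have h2 : ContDiff ℝ ∞ fun q : ST n => brKap.normed volume (q.2 + ‖q.1‖ ^ 2) :=
    brKap.contDiff_normed.comp (contDiff_snd.add (contDiff_fst.norm_sq ℝ))
  exact (Complex.ofRealCLM.contDiff.comp h1).mul (Complex.ofRealCLM.contDiff.comp h2)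

theorem br_G_supp : HasCompactSupport (brG : ST n → ℂ) := by
  refine HasCompactSupport.intro (K := closedBall (0 : ST n) 1) (isCompact_closedBall _ _) fun q hq => ?_
  unfold brG
  by_contra hne
  apply hq
  have h1 : brPsi n q.1 ≠ 0 := fun h => hne (by rw [h]; simp)
  have h2 : brKap.normed volume (q.2 + ‖q.1‖ ^ 2) ≠ 0 := fun h => hne (by rw [h]; simp)
  have h3 : q.1 ∈ ball (0 : E n) (1 / 2) := by
    have := (brPsi n).support_eq
    rw [← show (brPsi n).rOut = 1 / 2 from rfl, ← this]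
    exact h1
  have h4 : q.2 + ‖q.1‖ ^ 2 ∈ ball (0 : ℝ) (1 / 2) := by
    have := brKap.support_normed_eq (μ := volume)
    rw [← show brKap.rOut = 1 / 2 from rfl, ← this]
    exact h2
  rw [mem_ball_zero_iff] at h3 h4
  rw [mem_closedBall_zero_iff, Prod.norm_def]
  rw [Real.norm_eq_abs, abs_lt] at h4
  refine max_le (by linarith) ?_
  rw [Real.norm_eq_abs, abs_le]
  have h5 : ‖q.1‖ ^ 2 ≤ 1 / 4 := by nlinarith [norm_nonneg q.1]
  constructor <;> nlinarith [sq_nonneg ‖q.1‖]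

theorem br_G_inner (X : ST n) (ζ : E n) :
    ∫ s : ℝ, Complex.exp (Complex.I * ((⟪ζ, X.1⟫_ℝ + s * X.2 : ℝ) : ℂ)) * brG (ζ, s) = brKh X.2 * (car ζ X * (brPsi n ζ : ℂ)) := by
  set a : ℝ := ‖ζ‖ ^ 2 with ha
  have h1 := integral_add_right_eq_self (μ := (volume : Measure ℝ))
    (fun s : ℝ => Complex.exp (Complex.I * ((⟪ζ, X.1⟫_ℝ + (s - a) * X.2 : ℝ) : ℂ)) * ((brPsi n ζ : ℂ) * (brKap.normed volume s : ℂ))) a
  have h2 : ∀ s : ℝ, Complex.exp (Complex.I * ((⟪ζ, X.1⟫_ℝ + s * X.2 : ℝ) : ℂ)) * brG (ζ, s)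
      = Complex.exp (Complex.I * ((⟪ζ, X.1⟫_ℝ + (s + a - a) * X.2 : ℝ) : ℂ)) * ((brPsi n ζ : ℂ) * (brKap.normed volume (s + a) : ℂ)) := fun s => by
    rw [add_sub_cancel_right]
    rfl
  simp only [h2]
  rw [h1]
  have h3 : ∀ s : ℝ, Complex.exp (Complex.I * ((⟪ζ, X.1⟫_ℝ + (s - a) * X.2 : ℝ) : ℂ)) * ((brPsi n ζ : ℂ) * (brKap.normed volume s : ℂ))
      = (car ζ X * (brPsi n ζ : ℂ)) * ((brKap.normed volume s : ℂ) * Complex.exp (Complex.I * ((X.2 * s : ℝ) : ℂ))) := fun s => by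
    have e : Complex.exp (Complex.I * ((⟪ζ, X.1⟫_ℝ + (s - a) * X.2 : ℝ) : ℂ)) = car ζ X * Complex.exp (Complex.I * ((X.2 * s : ℝ) : ℂ)) := by
      unfold car
      rw [← Complex.exp_add, real_inner_comm, ha]
      congr 1
      push_cast
      ring
    rw [e]
    ring
  simp only [h3]
  rw [integral_const_mul]
  unfold brKh
  ring

theorem br_G_int (X : ST n) :
    ∫ q : ST n, Complex.exp (Complex.I * ((⟪q.1, X.1⟫_ℝ + q.2 * X.2 : ℝ) : ℂ)) * brG q = brHH X := by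
  have hc : Continuous fun q : ST n => Complex.exp (Complex.I * ((⟪q.1, X.1⟫_ℝ + q.2 * X.2 : ℝ) : ℂ)) * brG q := by
    have h1 : Continuous fun q : ST n => ((⟪q.1, X.1⟫_ℝ + q.2 * X.2 : ℝ) : ℂ) :=
      Complex.continuous_ofReal.comp (((continuous_fst.inner continuous_const)).add (continuous_snd.mul continuous_const))
    exact (Complex.continuous_exp.comp (continuous_const.mul h1)).mul br_G_smooth.continuous
  have hi : Integrable fun q : ST n => Complex.exp (Complex.I * ((⟪q.1, X.1⟫_ℝ + q.2 * X.2 : ℝ) : ℂ)) * brG q :=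
    hc.integrable_of_hasCompactSupport br_G_supp.mul_left
  rw [show (volume : Measure (ST n)) = (volume : Measure (E n)).prod (volume : Measure ℝ) from rfl] at hi ⊢
  rw [integral_prod _ hi]
  simp only [br_G_inner]
  rw [integral_const_mul]
  rfl

/-- **LEAF L-257-BR-HS.**  `κ̌(σ) H(u,σ)` IS A SCHWARTZ FUNCTION.
PLAN.  `V = WithLp 2 (E n × ℝ)` (inner product space; `WithLp.volume_preserving_ofLp / toLp`, `WithLp.prod_inner_apply`).  `G p = ψ(p.fst) κ(p.snd + ‖p.fst‖²)` is smooth (`ContDiffBump.contDiff`, `contDiff_normed`, `contDiff_norm_sq`)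
with compact support (`‖ζ‖ ≤ 1/2`, `|s| ≤ 1`), so `G` is Schwartz (`HasCompactSupport.toSchwartzMap`), so `𝓕 G` is Schwartz (`SchwartzMap.fourierTransformCLM` / `𝓕`), so is `f = (𝓕 G) ∘ e`, `e X = toLp 2 (-(2π)⁻¹ • X)`
(`SchwartzMap.compCLMOfContinuousLinearEquiv`).   Formula: `𝓕 G w = ∫ e^{-2πi⟪p,w⟫} G p dp = ∫_ζ ∫_s …` (`integral_prod`, the integrand is continuous with compact support), `s ↦ s - ‖ζ‖²` (`integral_add_right_eq_self`):
`= ∫_ζ ψ(ζ) e^{-2πi ζ·w₁ + 2πi ‖ζ‖² w₂} dζ · ∫_s κ(s) e^{-2πi s w₂} ds`; with `w = -(u,σ)/2π` this is `brH (u,σ) * brKh σ`. -/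
theorem br_HH_schwartz (n : ℕ) : ∃ f : SchwartzMap (ST n) ℂ, ∀ X, f X = brHH X := by
  let G₀ : SchwartzMap (ST n) ℂ := br_G_supp.toSchwartzMap br_G_smooth
  let e₁ : WithLp 2 (E n × ℝ) ≃L[ℝ] ST n := WithLp.prodContinuousLinearEquiv 2 ℝ (E n) ℝ
  let G₁ : SchwartzMap (WithLp 2 (E n × ℝ)) ℂ := SchwartzMap.compCLMOfContinuousLinearEquiv ℂ e₁ G₀
  let F₁ : SchwartzMap (WithLp 2 (E n × ℝ)) ℂ := 𝓕 G₁
  have hc : -(2 * Real.pi)⁻¹ ≠ 0 := by
    have := Real.pi_pos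
    exact neg_ne_zero.2 (inv_ne_zero (by positivity))
  let c : ℝˣ := Units.mk0 (-(2 * Real.pi)⁻¹) hc
  let e₂ : ST n ≃L[ℝ] WithLp 2 (E n × ℝ) := (ContinuousLinearEquiv.smulLeft c).trans e₁.symm
  refine ⟨SchwartzMap.compCLMOfContinuousLinearEquiv ℂ e₂ F₁, fun X => ?_⟩
  have h1 : SchwartzMap.compCLMOfContinuousLinearEquiv ℂ e₂ F₁ X = 𝓕 (G₁ : WithLp 2 (E n × ℝ) → ℂ) (e₂ X) := rfl
  rw [h1, Real.fourier_eq', ← (WithLp.volume_preserving_toLp (E n) ℝ).integral_comp (MeasurableEquiv.toLp 2 _).measurableEmbedding,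
    ← br_G_int X]
  refine integral_congr_ae (Filter.Eventually.of_forall fun q => ?_)
  have h2 : (G₁ : WithLp 2 (E n × ℝ) → ℂ) (WithLp.toLp 2 q) = brG q := rfl
  have h3 : e₂ X = WithLp.toLp 2 ((-(2 * Real.pi)⁻¹) • X) := rfl
  show Complex.exp (((-2 * Real.pi * ⟪WithLp.toLp 2 q, e₂ X⟫_ℝ : ℝ) : ℂ) * Complex.I) • (G₁ : WithLp 2 (E n × ℝ) → ℂ) (WithLp.toLp 2 q) = _
  rw [h2, h3, WithLp.prod_inner_apply, smul_eq_mul]
  congr 2
  have h4 : ⟪q.1, ((-(2 * Real.pi)⁻¹) • X).1⟫_ℝ = -(2 * Real.pi)⁻¹ * ⟪q.1, X.1⟫_ℝ := by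
    rw [Prod.smul_fst, real_inner_smul_right]
  have h5 : ⟪q.2, ((-(2 * Real.pi)⁻¹) • X).2⟫_ℝ = -(2 * Real.pi)⁻¹ * (q.2 * X.2) := by
    rw [Prod.smul_snd, real_inner_smul_right]
    congr 1
    simp [mul_comm]
  show ((-2 * Real.pi * (⟪q.1, ((-(2 * Real.pi)⁻¹) • X).1⟫_ℝ + ⟪q.2, ((-(2 * Real.pi)⁻¹) • X).2⟫_ℝ) : ℝ) : ℂ) * Complex.I = _
  rw [h4, h5, mul_comm Complex.I]
  congr 2
  have := Real.pi_pos
  field_simp
  ring

/-- **LEAF L-257-BR-CUT.** -/
theorem br_cut_smooth : ContDiff ℝ ∞ (brCut : ST n → ℝ) := by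
  unfold brCut
  exact ((brB n).contDiff_normed.comp contDiff_fst).mul (brTh.contDiff.comp contDiff_snd)

/-- **LEAF L-257-BR-CUT.**  `b(u) ≠ 0 ⟹ ‖u‖ < 2`, `θ(σ) ≠ 0 ⟹ |σ - 1/2| < 2`; sup norm on `ST n`. -/
theorem br_cut_supp (X : ST n) (h : brCut X ≠ 0) : ‖X‖ ≤ 5 / 2 := by
  unfold brCut at h
  have h1 : (brB n).normed volume X.1 ≠ 0 := left_ne_zero_of_mul h
  have h2 : brTh X.2 ≠ 0 := right_ne_zero_of_mul h
  have h3 : X.1 ∈ ball (0 : E n) 2 := by
    have := (brB n).support_normed_eq (μ := volume)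
    rw [← show (brB n).rOut = 2 from rfl, ← this]
    exact h1
  have h4 : X.2 ∈ ball (1 / 2 : ℝ) 2 := by
    have := brTh.support_eq
    have h5 : X.2 ∈ Function.support brTh := h2
    rw [this] at h5
    exact h5
  rw [mem_ball_zero_iff] at h3
  rw [mem_ball, Real.dist_eq, abs_lt] at h4
  rw [Prod.norm_def]
  refine max_le (by linarith) ?_
  rw [Real.norm_eq_abs, abs_le]
  constructor <;> linarith [h4.1, h4.2]

theorem br_cut_cs : HasCompactSupport (brCut : ST n → ℝ) :=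
  HasCompactSupport.intro (K := closedBall (0 : ST n) (5 / 2)) (isCompact_closedBall _ _) fun X hX => by
    by_contra hne
    exact hX (mem_closedBall_zero_iff.2 (br_cut_supp X hne))

/-- **LEAF L-257-BR-CUT.**  Continuous with compact support (as in `HasCompactSupport.toSchwartzMap`; or take `decay 0 j` of that Schwartz map). -/
theorem br_cut_bound (n j : ℕ) : ∃ C : ℝ, 0 ≤ C ∧ ∀ X : ST n, ‖iteratedFDeriv ℝ j (brCut : ST n → ℝ) X‖ ≤ C := by
  obtain ⟨C, hC⟩ := (br_cut_cs.toSchwartzMap br_cut_smooth : SchwartzMap (ST n) ℝ).decay' 0 j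
  have hC' : ∀ X : ST n, ‖iteratedFDeriv ℝ j (brCut : ST n → ℝ) X‖ ≤ C := fun X => by
    have := hC X
    rw [pow_zero, one_mul] at this
    exact this
  exact ⟨C, (norm_nonneg _).trans (hC' 0), hC'⟩

/-- **LEAF L-257-BR-PROF.**  ONE class for all layers.
PLAN.  `f` from `br_HH_schwartz`; `brPf v = (1+‖v‖)^{n+1} • (brCut · (f ∘ (· + (v,0))))`.  Smooth: product; support: `br_cut_supp`.  Leibniz `norm_iteratedFDeriv_mul_le`, translation `iteratedFDeriv_comp_add_right`,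
`(1+‖Y‖)^{n+1} ‖D^i f Y‖ ≤ C_i` (`SchwartzMap.one_add_le_sup_seminorm_apply` or `f.decay`), and for `‖X‖ ≤ 5/2`, `Y = X + (v,0)`: `1 + ‖v‖ ≤ (1 + ‖Y‖)(1 + 5/2)`; off the support of `brCut` every `D^i brCut X = 0`
(or avoid this: `‖D^i brCut X‖ ≤ C_i'(1+‖X‖)^{-(n+1)}` from the Schwartz map of `brCut`, and `1+‖v‖ ≤ (1+‖X‖)(1+‖Y‖)` for all `X`). -/
theorem br_prof (n J : ℕ) : ∃ B : ℝ, 0 ≤ B ∧ ∀ v : E n, Prof J 3 B (brPf v) := by
  obtain ⟨f, hf⟩ := br_HH_schwartz n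
  have hgs : ContDiff ℝ ∞ (fun X : ST n => (brCut X : ℂ)) := Complex.ofRealCLM.contDiff.comp br_cut_smooth
  have hgc : HasCompactSupport (fun X : ST n => (brCut X : ℂ)) := br_cut_cs.comp_left (g := fun r : ℝ => (r : ℂ)) Complex.ofReal_zero
  let g : SchwartzMap (ST n) ℂ := hgc.toSchwartzMap hgs
  set Cg : ℝ := 2 ^ (n + 1) * (Finset.Iic (n + 1, J)).sup (fun m => SchwartzMap.seminorm ℝ m.1 m.2) g with hCg
  set Cf : ℝ := 2 ^ (n + 1) * (Finset.Iic (n + 1, J)).sup (fun m => SchwartzMap.seminorm ℝ m.1 m.2) f with hCf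
  have hg : ∀ i ≤ J, ∀ X : ST n, (1 + ‖X‖) ^ (n + 1) * ‖iteratedFDeriv ℝ i (fun X : ST n => (brCut X : ℂ)) X‖ ≤ Cg := fun i hi X =>
    SchwartzMap.one_add_le_sup_seminorm_apply (𝕜 := ℝ) (m := (n + 1, J)) le_rfl hi g X
  have hff : ∀ i ≤ J, ∀ X : ST n, (1 + ‖X‖) ^ (n + 1) * ‖iteratedFDeriv ℝ i f X‖ ≤ Cf := fun i hi X =>
    SchwartzMap.one_add_le_sup_seminorm_apply (𝕜 := ℝ) (m := (n + 1, J)) le_rfl hi f X
  have hCg0 : 0 ≤ Cg := le_trans (by positivity) (hg 0 (Nat.zero_le _) 0)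
  have hCf0 : 0 ≤ Cf := le_trans (by positivity) (hff 0 (Nat.zero_le _) 0)
  refine ⟨2 ^ J * (Cg * Cf), by positivity, fun v => ?_⟩
  have hfv : ContDiff ℝ ∞ fun X : ST n => f (X + (v, 0)) := (f.smooth ⊤).comp (contDiff_id.add contDiff_const)
  have hprod : ContDiff ℝ ∞ fun X : ST n => (brCut X : ℂ) * f (X + (v, 0)) := hgs.mul hfv
  have heq : brPf v = fun X : ST n => ((1 + ‖v‖) ^ (n + 1) : ℝ) • ((brCut X : ℂ) * f (X + (v, 0))) := by
    funext X
    unfold brPf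
    rw [hf, Complex.real_smul]
    have : X + ((v, 0) : ST n) = (X.1 + v, X.2) := by
      ext <;> simp
    rw [this]
    push_cast
    ring
  refine ⟨?_, fun X hX => ?_, fun j hj X => ?_⟩
  · rw [heq]
    exact hprod.const_smul _
  · have : brCut X ≠ 0 := by
      intro h0
      apply hX
      unfold brPf
      rw [h0]
      simp
    exact (br_cut_supp X this).trans (by norm_num)
  · rw [heq, iteratedFDeriv_const_smul_apply' (hprod.contDiffAt.of_le (by exact_mod_cast le_top)), norm_smul,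
      Real.norm_of_nonneg (by positivity)]
    have h1 := norm_iteratedFDeriv_mul_le (𝕜 := ℝ) (N := ∞) hgs hfv X (n := j) (by exact_mod_cast le_top)
    have hv : 1 + ‖v‖ ≤ (1 + ‖X‖) * (1 + ‖X + ((v, 0) : ST n)‖) := by
      have e1 : ‖v‖ = ‖((v, 0) : ST n)‖ := by
        rw [Prod.norm_def, norm_zero, max_eq_left (norm_nonneg _)]
      have e2 : ‖((v, 0) : ST n)‖ ≤ ‖X + ((v, 0) : ST n)‖ + ‖X‖ := by
        calc ‖((v, 0) : ST n)‖ = ‖(X + ((v, 0) : ST n)) - X‖ := by rw [add_sub_cancel_left]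
          _ ≤ _ := norm_sub_le _ _
      nlinarith [norm_nonneg X, norm_nonneg (X + ((v, 0) : ST n)), mul_nonneg (norm_nonneg X) (norm_nonneg (X + ((v, 0) : ST n)))]
    have hterm : ∀ i ∈ Finset.range (j + 1), (1 + ‖v‖) ^ (n + 1) * ((j.choose i : ℝ) * ‖iteratedFDeriv ℝ i (fun X : ST n => (brCut X : ℂ)) X‖
        * ‖iteratedFDeriv ℝ (j - i) (fun X : ST n => f (X + (v, 0))) X‖) ≤ (j.choose i : ℝ) * (Cg * Cf) := by
      intro i hi
      have hi' : i ≤ J := (Nat.lt_succ_iff.1 (Finset.mem_range.1 hi)).trans hj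
      have hji : j - i ≤ J := (Nat.sub_le _ _).trans hj
      rw [iteratedFDeriv_comp_add_right]
      have a1 := hg i hi' X
      have a2 := hff (j - i) hji (X + (v, 0))
      have a3 : (1 + ‖v‖) ^ (n + 1) ≤ (1 + ‖X‖) ^ (n + 1) * (1 + ‖X + ((v, 0) : ST n)‖) ^ (n + 1) := by
        rw [← mul_pow]
        exact pow_le_pow_left₀ (by positivity) hv _
      calc (1 + ‖v‖) ^ (n + 1) * ((j.choose i : ℝ) * ‖iteratedFDeriv ℝ i (fun X : ST n => (brCut X : ℂ)) X‖
            * ‖iteratedFDeriv ℝ (j - i) f (X + (v, 0))‖)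
          ≤ ((1 + ‖X‖) ^ (n + 1) * (1 + ‖X + ((v, 0) : ST n)‖) ^ (n + 1)) * ((j.choose i : ℝ) * ‖iteratedFDeriv ℝ i (fun X : ST n => (brCut X : ℂ)) X‖
            * ‖iteratedFDeriv ℝ (j - i) f (X + (v, 0))‖) := mul_le_mul_of_nonneg_right a3 (by positivity)
        _ = (j.choose i : ℝ) * (((1 + ‖X‖) ^ (n + 1) * ‖iteratedFDeriv ℝ i (fun X : ST n => (brCut X : ℂ)) X‖)
            * ((1 + ‖X + ((v, 0) : ST n)‖) ^ (n + 1) * ‖iteratedFDeriv ℝ (j - i) f (X + (v, 0))‖)) := by ring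
        _ ≤ (j.choose i : ℝ) * (Cg * Cf) := by
            refine mul_le_mul_of_nonneg_left (mul_le_mul a1 a2 (by positivity) hCg0) (by positivity)
    calc (1 + ‖v‖) ^ (n + 1) * ‖iteratedFDeriv ℝ j (fun X : ST n => (brCut X : ℂ) * f (X + (v, 0))) X‖
        ≤ (1 + ‖v‖) ^ (n + 1) * ∑ i ∈ Finset.range (j + 1), (j.choose i : ℝ) * ‖iteratedFDeriv ℝ i (fun X : ST n => (brCut X : ℂ)) X‖
          * ‖iteratedFDeriv ℝ (j - i) (fun X : ST n => f (X + (v, 0))) X‖ := mul_le_mul_of_nonneg_left h1 (by positivity)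
      _ = ∑ i ∈ Finset.range (j + 1), (1 + ‖v‖) ^ (n + 1) * ((j.choose i : ℝ) * ‖iteratedFDeriv ℝ i (fun X : ST n => (brCut X : ℂ)) X‖
          * ‖iteratedFDeriv ℝ (j - i) (fun X : ST n => f (X + (v, 0))) X‖) := Finset.mul_sum _ _ _
      _ ≤ ∑ i ∈ Finset.range (j + 1), (j.choose i : ℝ) * (Cg * Cf) := Finset.sum_le_sum hterm
      _ = 2 ^ j * (Cg * Cf) := by
          rw [← Finset.sum_mul]
          congr 1
          exact_mod_cast Nat.sum_range_choose j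
      _ ≤ 2 ^ J * (Cg * Cf) := by
          refine mul_le_mul_of_nonneg_right (pow_le_pow_right₀ one_le_two hj) (by positivity)

theorem br_mult_vec_apply (k : Fin n → ℤ) (i : Fin n) : brVec k i = (k i : ℝ) := rfl

/-- **LEAF L-257-BR-MULT.**  Phase space multiplicity.  `L ω_k = k/(2n)`, `y/L = 2π m + v`, `2 τ' L ω_k = τ' k / n`.  Every `k i` lies in an interval of length `4n` (coordinates are bounded by the Euclidean norm): `≤ 4n+1` integers;
for a FIXED `k` two admissible `m, m'` satisfy `‖2π (m - m')‖ ≤ 2`, so `m = m'`: `α ↦ α.1` is injective on `t`.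
Inject `t` into `Fintype.piFinset fun i => Finset.Icc ⌈2n(ξ i - 1)⌉ ⌊2n(ξ i + 1)⌋` (`Finset.card_le_card_of_injOn`, `Fintype.card_piFinset`, `Int.card_Icc`). -/
theorem br_mult (hn : 1 ≤ n) {L : ℝ} (hL : 0 < L) (v : E n) (ξ y : E n) (τ' : ℝ) (t : Finset (BrI n))
    (ht : ∀ α ∈ t, ‖L • brOm L α.1 - ξ‖ ≤ 1 ∧ |(0 : ℝ) - τ'| ≤ 1 ∧
      ‖L⁻¹ • ((2 * Real.pi * L) • brVec α.2 + L • v) + (2 * τ' * L) • brOm L α.1 - y‖ ≤ 1) : t.card ≤ (4 * n + 1) ^ n := by
  have hn0 : (0 : ℝ) < n := by exact_mod_cast hn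
  set P : Finset (Fin n → ℤ) := Fintype.piFinset fun i => Finset.Icc ⌈2 * (n : ℝ) * (ξ i - 1)⌉ ⌊2 * (n : ℝ) * (ξ i + 1)⌋ with hP
  have hcard : P.card ≤ (4 * n + 1) ^ n := by
    rw [hP, Fintype.card_piFinset]
    calc ∏ i : Fin n, (Finset.Icc ⌈2 * (n : ℝ) * (ξ i - 1)⌉ ⌊2 * (n : ℝ) * (ξ i + 1)⌋).card ≤ ∏ _i : Fin n, (4 * n + 1) := by
          refine Finset.prod_le_prod' fun i _ => ?_
          rw [Int.card_Icc]
          have h1 : (⌊2 * (n : ℝ) * (ξ i + 1)⌋ : ℝ) ≤ 2 * (n : ℝ) * (ξ i + 1) := Int.floor_le _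
          have h2 : 2 * (n : ℝ) * (ξ i - 1) ≤ (⌈2 * (n : ℝ) * (ξ i - 1)⌉ : ℝ) := Int.le_ceil _
          have h3 : ((⌊2 * (n : ℝ) * (ξ i + 1)⌋ + 1 - ⌈2 * (n : ℝ) * (ξ i - 1)⌉ : ℤ) : ℝ) ≤ ((4 * n + 1 : ℤ) : ℝ) := by
            push_cast
            linarith
          have h4 : ⌊2 * (n : ℝ) * (ξ i + 1)⌋ + 1 - ⌈2 * (n : ℝ) * (ξ i - 1)⌉ ≤ (4 * n + 1 : ℤ) := by exact_mod_cast h3
          omega
      _ = (4 * n + 1) ^ n := by simp
  refine le_trans (Finset.card_le_card_of_injOn (fun α => α.1) ?_ ?_) hcard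
  · intro α hα
    have h1 := (ht α hα).1
    show α.1 ∈ P
    rw [hP, Fintype.mem_piFinset]
    intro i
    have h2 : ‖(L • brOm L α.1 - ξ) i‖ ≤ 1 := (PiLp.norm_apply_le _ i).trans h1
    have h3 : (L • brOm L α.1 - ξ) i = (α.1 i : ℝ) / (2 * n) - ξ i := by
      unfold brOm
      simp only [PiLp.sub_apply, PiLp.smul_apply, smul_eq_mul, br_mult_vec_apply]
      field_simp
    rw [h3, Real.norm_eq_abs, abs_le] at h2
    rw [Finset.mem_Icc]
    constructor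
    · apply Int.ceil_le.2
      have : ξ i - 1 ≤ (α.1 i : ℝ) / (2 * n) := by linarith [h2.1]
      rw [le_div_iff₀ (by positivity)] at this
      linarith
    · apply Int.le_floor.2
      have : (α.1 i : ℝ) / (2 * n) ≤ ξ i + 1 := by linarith [h2.2]
      rw [div_le_iff₀ (by positivity)] at this
      linarith
  · intro α hα β hβ hαβ
    have hαβ' : α.1 = β.1 := hαβ
    have h1 := (ht α hα).2.2
    have h2 := (ht β hβ).2.2
    have h3 : ‖(2 * Real.pi) • (brVec α.2 - brVec β.2)‖ ≤ 2 := by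
      have e : (2 * Real.pi) • (brVec α.2 - brVec β.2)
          = (L⁻¹ • ((2 * Real.pi * L) • brVec α.2 + L • v) + (2 * τ' * L) • brOm L α.1 - y)
            - (L⁻¹ • ((2 * Real.pi * L) • brVec β.2 + L • v) + (2 * τ' * L) • brOm L β.1 - y) := by
        rw [hαβ']
        simp only [smul_add, smul_smul, smul_sub]
        have : L⁻¹ * (2 * Real.pi * L) = 2 * Real.pi := by field_simp
        rw [this]
        abel
      rw [e]
      exact (norm_sub_le _ _).trans (by linarith)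
    refine Prod.ext hαβ' (funext fun i => ?_)
    have h4 : ‖((2 * Real.pi) • (brVec α.2 - brVec β.2)) i‖ ≤ 2 := (PiLp.norm_apply_le _ i).trans h3
    have h5 : ((2 * Real.pi) • (brVec α.2 - brVec β.2)) i = 2 * Real.pi * ((α.2 i : ℝ) - (β.2 i : ℝ)) := by
      simp only [PiLp.sub_apply, PiLp.smul_apply, smul_eq_mul, br_mult_vec_apply]
    rw [h5, Real.norm_eq_abs, abs_mul, abs_of_pos (by positivity)] at h4
    have h6 : |(α.2 i : ℝ) - (β.2 i : ℝ)| < 1 := by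
      have := Real.pi_gt_three
      by_contra hge
      push Not at hge
      nlinarith
    have h7 : |α.2 i - β.2 i| < 1 := by exact_mod_cast h6
    have := Int.abs_lt_one_iff.1 h7
    omega

theorem br_in (hn : 1 ≤ n) {J : ℕ} {B : ℝ} (hB : ∀ v : E n, Prof J 3 B (brPf v)) {L : ℝ} (hL : 1 ≤ L) (v : E n) (S : Finset (BrI n))
    (hS : ∀ α ∈ S, ‖brOm L α.1‖ ≤ 14) : (brArr L v).In S (brCls n J B) :=
  ⟨hL, fun _ _ => hB v, hS, fun ξ y τ' t _ ht => br_mult hn (lt_of_lt_of_le one_pos hL) v ξ y τ' t ht⟩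

end Claimed.Agent.R257
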